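import Vale.Agent.P297Y.An.Crr

/-!
# P014 T: differentials of the third kind with given residues
-/

set_option linter.all false

open Vale.Agent.P019P P025H492 IntermediateField Vale.Agent.P297Y.Crr
open scoped Classical

noncomputable section

namespace Vale.Agent.P014T.Es

namespace Td

variable {k K : Type*} [Field k] [Field K] [Algebra k K] [CFF k K] {t : K}

theorem m1 {P : Plk k K} {z : K} {n : ℤ} (h : n ≤ ord P z) : z ∈ Mge P n := mem_Mge.2 (Or.inr h)

theorem ord_ne {P : Plk k K} (ht : ∀ a : k, t ≠ algebraMap k K a) (h : 0 ≤ ord P t) {a : k}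
    (ha : a ≠ vl P t) : ord P (t - algebraMap k K a) = 0 := by
  have h1 : t - algebraMap k K a ∈ Mge P 0 := sub_mem (m1 h) (m1 (ord_const P a).ge)
  have h2 := (mem_Mge.1 h1).resolve_left (sub_ne_zero.2 (ht a))
  exact le_antisymm (not_lt.1 fun l => ha (vl_eq_of_pos l).symm) h2

theorem ord_inf {P : Plk k K} (h : ord P t < 0) (a : k) : ord P (t - algebraMap k K a) = ord P t := by
  rw [sub_eq_add_neg]
  refine (ord_add_of_lt (fun e => ?_) (neg_mem (m1 ((show ord P t + 1 ≤ 0 by omega).trans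
    (ord_const P a).ge)))).2
  rw [e, ord_zero] at h; omega

/-- the residues on the line -/
theorem line (ht : ∀ a : k, t ≠ algebraMap k K a)
    (h1 : ∀ Q : Plk k K, 0 ≤ ord Q t → ord Q (t - algebraMap k K (vl Q t)) = 1)
    {ι : Type*} (S : Finset ι) (a r : ι → k) {z : K}
    (hf : ∀ Q : Plk k K, 0 ≤ ord Q t → (t - algebraMap k K (vl Q t)) * z -
      algebraMap k K (∑ i ∈ S with a i = vl Q t, r i) ∈ Mge Q 1)
    (hi : ∀ Q : Plk k K, ord Q t < 0 → t * z ∈ Mge Q 1) : ∑ i ∈ S, r i = 0 := by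
  have t0 : t ≠ 0 := fun e => ht 0 (by rw [e, map_zero])
  have n0 := fun a => sub_ne_zero.2 (ht a)
  have iv : ∀ Q : Plk k K, ord Q t < 0 → ∀ b c : k,
      algebraMap k K b * (t - algebraMap k K c)⁻¹ ∈ Mge Q 1 := fun Q h b c => by
    rw [← Algebra.smul_def]
    exact Submodule.smul_mem _ _ (m1 (by rw [ord_inv, ord_inf h]; omega))
  set w := z - ∑ i ∈ S, algebraMap k K (r i) * (t - algebraMap k K (a i))⁻¹ with hw
  have wi : ∀ Q : Plk k K, ord Q t < 0 → w ∈ Mge Q 1 := fun Q h =>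
    sub_mem (Mge_mono Q (by omega) ((mul_mem_Mge_iff t0).1 (hi Q h))) (sum_mem fun i _ => iv Q h _ _)
  have wf : ∀ Q : Plk k K, 0 ≤ ord Q t → w ∈ Mge Q 0 := fun Q h => by
    have e : (t - algebraMap k K (vl Q t)) * w ∈ Mge Q 1 := by
      have := sub_mem (hf Q h) (sum_mem (S := Mge Q 1) (t := S) (f := fun i =>
        r i • ((t - algebraMap k K (vl Q t)) * (t - algebraMap k K (a i))⁻¹ -
          if a i = vl Q t then 1 else 0)) fun i _ => Submodule.smul_mem _ _ (by
        split_ifs with e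
        · rw [e, mul_inv_cancel₀ (n0 _), sub_self]; exact zero_mem _
        · rw [sub_zero]
          exact mul_mem_Mge (m := 1) (n := 0) (m1 (h1 Q h).ge)
            (m1 (by rw [ord_inv, ord_ne ht h e]; rfl))))
      refine (congrArg (· ∈ Mge Q 1) ?_).mp this
      rw [hw, mul_sub, Finset.mul_sum, Finset.sum_filter, map_sum, sub_sub, ← Finset.sum_add_distrib]
      refine congrArg _ (Finset.sum_congr rfl fun i _ => ?_)
      rw [Algebra.smul_def]
      split_ifs <;> (try simp only [map_zero]) <;> ring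
    rw [mul_mem_Mge_iff (n0 _), h1 Q h] at e
    exact e
  obtain ⟨Q, hQ⟩ := exists_pole ht
  have w0 : w = 0 := by
    by_contra w0
    obtain ⟨c, hc⟩ : ∃ c : k, w = algebraMap k K c := by
      by_contra hn
      obtain ⟨R, hR⟩ := exists_pole (not_exists.1 hn)
      rcases lt_or_ge (ord R t) 0 with l | l
      · have := (mem_Mge.1 (wi R l)).resolve_left w0; omega
      · have := (mem_Mge.1 (wf R l)).resolve_left w0; omega
    have c0 : c = 0 := const_notMem (hc ▸ wi Q hQ)
    exact w0 (by rw [hc, c0, map_zero])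
  refine const_notMem (K := K) (P := Q) ?_
  have := sub_mem (hi Q hQ) (sum_mem (S := Mge Q 1) (t := S) fun i _ => iv Q hQ (r i * a i) (a i))
  refine (congrArg (· ∈ Mge Q 1) ?_).mp this
  rw [sub_eq_zero.1 (hw.symm.trans w0), Finset.mul_sum, map_sum, ← Finset.sum_sub_distrib]
  refine Finset.sum_congr rfl fun i _ => ?_
  have := n0 (a i)
  rw [map_mul]
  field_simp

/-- simple poles with residues `c` -/
def Rs (t y : K) (c : Plk k K → k) : Prop := ∀ P, (ord P t < 0 → t * y ∈ Mge P 1) ∧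
  (0 ≤ ord P t → (t - algebraMap k K (vl P t)) * y -
    algebraMap k K (c P / (ord P (t - algebraMap k K (vl P t)) : ℤ)) ∈ Mge P 1)

theorem Rs.zero : Rs t 0 (0 : Plk k K → k) := fun P => by simp

theorem Rs.add {y y' : K} {c c' : Plk k K → k} (h : Rs t y c) (h' : Rs t y' c') :
    Rs t (y + y') (c + c') := fun P =>
  ⟨fun l => mul_add t y y' ▸ add_mem ((h P).1 l) ((h' P).1 l), fun l => by
    refine (congrArg (· ∈ Mge P 1) ?_).mp (add_mem ((h P).2 l) ((h' P).2 l))
    rw [Pi.add_apply, add_div, map_add]; ring⟩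

theorem Rs.smul {y : K} {c : Plk k K → k} (h : Rs t y c) (a : k) : Rs t (a • y) (a • c) := fun P =>
  ⟨fun l => mul_smul_comm a t y ▸ Submodule.smul_mem _ a ((h P).1 l), fun l => by
    refine (congrArg (· ∈ Mge P 1) ?_).mp (Submodule.smul_mem _ a ((h P).2 l))
    rw [Pi.smul_apply, smul_eq_mul, mul_div_assoc, map_mul, Algebra.smul_def, Algebra.smul_def]; ring⟩

variable [CharZero k]

/-- the sum of the residues -/
theorem Rs.sum (ht : ∀ a : k, t ≠ algebraMap k K a) {y : K} {c : Plk k K → k} (h : Rs t y c)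
    (S : Finset (Plk k K)) (hS : ∀ P ∈ S, 0 ≤ ord P t) (hc : ∀ P ∉ S, c P = 0) :
    ∑ P ∈ S, c P = 0 := by
  haveI : FiniteDimensional k⟮t⟯ K := (finite_of_notMem ht).2
  haveI : CFF k k⟮t⟯ := cff_adjoin ht
  set τ := AdjoinSimple.gen k t
  have e : algebraMap k⟮t⟯ K τ = t := AdjoinSimple.algebraMap_gen k t
  have e' : ∀ a, algebraMap k⟮t⟯ K (τ - algebraMap k k⟮t⟯ a) = t - algebraMap k K a := fun a => by
    rw [map_sub, e, ← IsScalarTower.algebraMap_apply]
  have tr : ∀ (u : k⟮t⟯) (w : K), Algebra.trace k⟮t⟯ K (algebraMap k⟮t⟯ K u * w) =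
      u * Algebra.trace k⟮t⟯ K w := fun u w => by rw [← Algebra.smul_def, map_smul, smul_eq_mul]
  refine line (gen_nc ht) (fun Q l => ?_) S (fun P => vl P t) c (z := Algebra.trace k⟮t⟯ K y)
    (fun Q l => ?_) fun Q l => ?_
  · obtain ⟨R, h1, h2⟩ := line_fib ht (vl Q τ)
    exact (congrArg (ord · _) (h2 Q (ord_sub_vl_pos (gen_nc ht) l))).trans h1
  · have ov : ∀ P : Plk k K, down k⟮t⟯ P = Q → 0 < ord P (t - algebraMap k K (vl Q τ)) :=
      fun P hP => by rw [← e', ord_up_pos_iff, hP]; exact ord_sub_vl_pos (gen_nc ht) l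
    have := trace_residue Q ((t - algebraMap k K (vl Q τ)) * y)
      (fun P => c P / (ord P (t - algebraMap k K (vl P t)) : ℤ)) fun P hP => by
        rw [← vl_eq_of_pos (ov P hP)]
        exact (h P).2 (ord_nonneg_of_sub (mem_Mge_one_of_pos (ov P hP)))
    rw [← e', tr, Finset.sum_congr rfl fun P hP => (?_ : _ = c P),
      ← Finset.sum_subset (s₁ := S.filter fun P => vl P t = vl Q τ) (fun P hP => ?_) fun P hP n => ?_]
      at this
    · exact this
    · obtain ⟨h1, h2⟩ := Finset.mem_filter.1 hP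
      obtain ⟨R, -, h3⟩ := line_fib ht (vl Q τ)
      refine mem_over.2 ((h3 _ ?_).trans (h3 _ (ord_sub_vl_pos (gen_nc ht) l)).symm)
      rw [← ord_up_pos_iff, e', ← h2]
      exact ord_sub_vl_pos ht (hS P h1)
    · exact hc P fun h1 => n (Finset.mem_filter.2 ⟨h1, vl_eq_of_pos (ov P (mem_over.1 hP))⟩)
    · have h1 := ov P (mem_over.1 hP)
      rw [vl_eq_of_pos h1, ord_sub_eq_ram ht h1, Int.cast_natCast, mul_div_cancel₀]
      exact Nat.cast_ne_zero.2 (ram_pos P).ne'
  · have := trace_residue Q (t * y) (fun _ => 0) fun P hP => by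
      rw [map_zero, sub_zero]
      refine (h P).1 ?_
      rw [← e, ord_algebraMap, hP]
      exact mul_neg_of_pos_of_neg (by exact_mod_cast ram_pos P) l
    rw [show t * y = algebraMap k⟮t⟯ K τ * y from congrArg (· * y) e.symm, tr] at this
    simpa using this

theorem pair (ht : ∀ a : k, t ≠ algebraMap k K a) {P₀ P₁ : Plk k K} (h₀ : 0 ≤ ord P₀ t)
    (h₁ : 0 ≤ ord P₁ t) : ∃ y, Rs t y (Pi.single P₁ 1 - Pi.single P₀ (1 : k)) := by
  by_cases ne : P₁ = P₀
  · exact ⟨0, by rw [ne, sub_self]; exact Rs.zero⟩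
  have t0 : t ≠ 0 := fun e => ht 0 (by rw [e, map_zero])
  have r1 := RR_wdv ht (-Finsupp.single P₀ 1)
  have r2 := RR_wdv ht (-(Finsupp.single P₀ 1 + Finsupp.single P₁ 1))
  rw [l_eq_zero (by rw [map_neg, dg_sgl]; omega), sub_neg_eq_add, map_neg, dg_sgl] at r1
  rw [l_eq_zero (by rw [map_neg, map_add, dg_sgl, dg_sgl]; omega), sub_neg_eq_add, map_neg, map_add,
    dg_sgl, dg_sgl] at r2
  obtain ⟨y, y1, y2⟩ : ∃ y ∈ LL k (wdv k t + (Finsupp.single P₀ 1 + Finsupp.single P₁ 1)),
      y ∉ LL k (wdv k t + Finsupp.single P₀ 1) := by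
    by_contra hn
    have := Submodule.finrank_mono (fun y hy => not_not.1 fun n => hn ⟨y, hy, n⟩)
    omega
  rw [mem_LL_iff] at y1 y2
  simp only [Finsupp.add_apply, wdv_apply ht, wd, Finsupp.single_apply] at y1 y2
  let c : Plk k K → k := fun P => if 0 ≤ ord P t then
    (ord P (t - algebraMap k K (vl P t)) : ℤ) * vl P ((t - algebraMap k K (vl P t)) * y) else 0
  have n0 := fun a => sub_ne_zero.2 (ht a)
  have e0 : ∀ P : Plk k K, 0 ≤ ord P t → ((ord P (t - algebraMap k K (vl P t)) : ℤ) : k) ≠ 0 :=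
    fun P l => Int.cast_ne_zero.2 (ord_sub_vl_pos ht l).ne'
  have R : Rs t y c := fun P => ⟨fun l => ?_, fun l => ?_⟩
  rotate_left
  · have := y1 P
    rw [if_neg l.not_ge, if_neg (by rintro rfl; omega), if_neg (by rintro rfl; omega)] at this
    exact (mul_mem_Mge_iff t0).2 (Mge_mono P (by omega) this)
  · have := y1 P
    rw [if_pos l] at this
    have h2 : (t - algebraMap k K (vl P t)) * y ∈ Mge P 0 := (mul_mem_Mge_iff (n0 _)).2
      (Mge_mono P (by split_ifs with a b <;> first | omega | exact (ne (b.trans a.symm)).elim) this)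
    simp only [c, if_pos l]
    rw [mul_div_cancel_left₀ _ (e0 P l)]
    exact sub_vl_mem ((mem_Mge.1 h2).elim (fun e => by rw [e, ord_zero]) id)
  have z : ∀ P ∉ ({P₀, P₁} : Finset (Plk k K)), c P = 0 := fun P hP => by
    simp only [Finset.mem_insert, Finset.mem_singleton, not_or] at hP
    simp only [c]
    split_ifs with l
    · have := y1 P
      rw [if_pos l, if_neg (Ne.symm hP.1), if_neg (Ne.symm hP.2)] at this
      rw [vl_eq (z := (t - algebraMap k K (vl P t)) * y) (c := 0) (by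
        rw [map_zero, sub_zero, mul_mem_Mge_iff (n0 _)]
        exact Mge_mono P (by omega) this), mul_zero]
    · rfl
  have s := R.sum ht {P₀, P₁} (by simp [h₀, h₁]) z
  rw [Finset.sum_pair (Ne.symm ne)] at s
  have c1 : c P₁ ≠ 0 := fun e => y2 fun P => by
    by_cases hP : P₁ = P
    · subst hP
      have := (R P₁).2 h₁
      rw [e, zero_div, map_zero, sub_zero, mul_mem_Mge_iff (n0 _)] at this
      rw [if_pos h₁, if_neg (Ne.symm ne)]
      exact Mge_mono _ (by omega) this
    · simpa only [if_neg hP, add_zero] using y1 P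
  refine ⟨(c P₁)⁻¹ • y, (congrArg (Rs t _) (funext fun P => ?_)).mp (R.smul (c P₁)⁻¹)⟩
  rw [Pi.smul_apply, Pi.sub_apply, smul_eq_mul]
  by_cases a : P = P₁
  · rw [a, inv_mul_cancel₀ c1, Pi.single_eq_same, Pi.single_eq_of_ne ne, sub_zero]
  by_cases b : P = P₀
  · rw [b, Pi.single_eq_same, Pi.single_eq_of_ne (Ne.symm ne), eq_neg_of_add_eq_zero_left s,
      mul_neg, inv_mul_cancel₀ c1, zero_sub]
  · rw [z P (by simp [a, b]), Pi.single_eq_of_ne a, Pi.single_eq_of_ne b, mul_zero, sub_zero]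

end Td

open Td in
/-- **differentials of the third kind** -/
theorem third {k K : Type*} [Field k] [Field K] [Algebra k K] [CFF k K] [CharZero k] {t : K}
    (ht : ∀ a : k, t ≠ algebraMap k K a) (D : Plk k K →₀ ℤ) (h0 : dg D = 0)
    (hD : ∀ P, ord P t < 0 → D P = 0) : ∃ y : K, ∀ P, (ord P t < 0 → t * y ∈ Mge P 1) ∧
      (0 ≤ ord P t → (t - algebraMap k K (vl P t)) * y -
        algebraMap k K ((D P : k) / (ord P (t - algebraMap k K (vl P t)) : ℤ)) ∈ Mge P 1) := by
  have f : ∀ P ∈ D.support, 0 ≤ ord P t := fun P h =>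
    not_lt.1 fun l => Finsupp.mem_support_iff.1 h (hD P l)
  rcases D.support.eq_empty_or_nonempty with e | ⟨P₀, h₀⟩
  · rw [Finsupp.support_eq_empty.1 e]
    exact ⟨0, fun P => by simp⟩
  choose! y hy using fun P (h : P ∈ D.support) => pair ht (f P₀ h₀) (f P h)
  have R := Finset.sum_induction (s := D.support)
    (fun P => ((D P : k) • y P, (D P : k) • (Pi.single P 1 - Pi.single P₀ (1 : k) : Plk k K → k)))
    (fun x => Rs t x.1 x.2) (fun _ _ => Rs.add) Rs.zero fun P h => (hy P h).smul _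
  refine ⟨_, (congrArg (Rs t _) (funext fun P => ?_) : _ = Rs t _ fun P => (D P : k)).mp R⟩
  have s : ∑ Q ∈ D.support, (D Q : k) = 0 := by
    rw [← Int.cast_sum, ← Int.cast_zero, ← h0, dg_apply]; rfl
  rw [Prod.snd_sum, Finset.sum_apply]
  simp only [Pi.smul_apply, Pi.sub_apply, smul_eq_mul, mul_sub, Finset.sum_sub_distrib,
    ← Finset.sum_mul, s, zero_mul, sub_zero]
  simp only [Pi.single_apply, mul_ite, mul_one, mul_zero, Finset.sum_ite_eq]
  split_ifs with h
  · rfl
  · rw [Finsupp.notMem_support_iff.1 h, Int.cast_zero]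

end Vale.Agent.P014T.Es
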