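import Vale.Agent.P014T.Es.Ut0
import Vale.Agent.P014T.Es.Thd

/-! # P014 T: a divisor of degree zero is the divisor of a function with unitary multiplier -/

set_option autoImplicit false
set_option linter.all false

open UpperHalfPlane CongruenceSubgroup Filter Topology Function.Periodic
open scoped MatrixGroups Classical Real ModularForm

noncomputable section

namespace Vale.Agent.P014T.Es

open Vale.Agent.P022.H218.L3 Vale.Agent.P022.H236.L3 Vale.Agent.P019P Vale.Agent.P027M.ES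
open Vale.Agent.P022K.F0.Cf hiding MF
open Vale.Agent.P004Z Vale.Agent.P004Z.Ar Vale.Agent.P004Z.Ar.Fn
open Vale.Agent.P004Z.Bo (MAt)

namespace Ut

variable {x y : Mer} {τ : ℍ} {n : ℍ → ℤ} {N : ℕ} {Ψ : ℍ → ℂ}

theorem gd_of {Γ : Subgroup SL(2, ℤ)} [CFF ℂ (MF Γ)] (h4 : Γ ≤ Gamma0 4) {y : MF Γ} {m : ℤ}
    (k : (jG Γ - algebraMap ℂ _ (P025H492.vl (pt Γ τ) (jG Γ))) * y - algebraMap ℂ _ ((m : ℂ) /
      (ord (pt Γ τ) (jG Γ - algebraMap ℂ _ (P025H492.vl (pt Γ τ) (jG Γ))) : ℤ)) ∈ Mge (pt Γ τ) 1) :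
    sj τ * y - algebraMap ℂ Mer (m / od τ (sj τ)) ∈ Zr (pure τ) := by
  have e : ((jG Γ - algebraMap ℂ (MF Γ) (jf τ) : MF Γ) : Mer) = sj τ := rfl
  have v : P025H492.vl (pt Γ τ) (jG Γ) = jf τ :=
    P025H492.vl_eq_of_pos (by rw [ord_pt h4, e]; exact od_j τ)
  rw [v, ord_pt h4, e] at k
  have := zr_pt h4 k
  rwa [AddSubgroupClass.coe_sub, MulMemClass.coe_mul, e] at this

theorem ord_cp {Γ : Subgroup SL(2, ℤ)} [Γ.FiniteIndex] [CFF ℂ (MF Γ)] (g : SL(2, ℤ)) :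
    ord (cp Γ g) (jG Γ) < 0 := not_le.1 fun k =>
  j_not g⁻¹ (mem_cp (x := jG Γ).1 ((mem_iff_ord _ _).2 (.inr k)))

theorem cp_of {Γ : Subgroup SL(2, ℤ)} [Γ.FiniteIndex] [CFF ℂ (MF Γ)] {y : MF Γ} {g : SL(2, ℤ)}
    (h : jG Γ * y ∈ Mge (cp Γ g) 1) : act g⁻¹ (jM * y) ∈ Zr atImInfty :=
  (congrArg (fun x => act g⁻¹ x ∈ Zr atImInfty) (rfl : ((jG Γ * y : MF Γ) : Mer) = jM * y)).mp
    (zr_cp h)

theorem ex_y {M : ℕ} (hM : 0 < M) (h4 : Gamma0 M ≤ Gamma0 4) (hd : Dv M (cs n))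
    (h0 : ws M (cs n) 1 = 0) :
    ∃ y ∈ MF (Gamma0 M), Gd n y ∧ ∀ g : SL(2, ℤ), act g⁻¹ (jM * y) ∈ Zr atImInfty := by
  have : NeZero M := ⟨hM.ne'⟩
  have c := cff (Gamma0 M)
  obtain ⟨D, d0, d1, d2⟩ := ex_D hM h4 hd h0
  have o : ∀ τ, 0 ≤ ord (pt (Gamma0 M) τ) (jG _) := fun τ => by
    rw [ord_pt h4]
    exact od_j0 τ
  obtain ⟨y, hy⟩ := third (t := jG (Gamma0 M))
    (fun a e => jM_ne_const a (congrArg Subtype.val e)) D d0 fun P k => d1 P fun τ e =>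
      k.not_ge (e ▸ o τ)
  refine ⟨y, y.2, fun τ => ?_, fun g => ?_⟩
  · rw [← d2 τ]
    exact gd_of h4 ((hy _).2 (o τ))
  · exact cp_of ((hy _).1 (ord_cp g))

theorem ex_Y (hN : 0 < N) (hd : Dv N (cs n)) (h0 : ws (4 * N) (cs n) 1 = 0) :
    ∃ y, Gd n y ∧ (∀ γ ∈ Gamma0 N, act γ y = y) ∧
      ∀ g : SL(2, ℤ), act g⁻¹ (jM * y) ∈ Zr atImInfty := by
  have : NeZero (4 * N) := ⟨by omega⟩
  obtain ⟨y, m, a, b⟩ := ex_y (by omega) (g0_le (dvd_mul_right 4 N))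
    (hd.mono (by omega) (dvd_mul_left N 4)) h0
  let Q := Gamma0 N ⧸ (Gamma0 (4 * N)).subgroupOf (Gamma0 N)
  have := Fintype.ofFinite Q
  have c0 : (Fintype.card Q : ℂ) ≠ 0 := Nat.cast_ne_zero.2 Fintype.card_ne_zero
  refine ⟨(Fintype.card Q : ℂ)⁻¹ • ∑ q : Q, act (q.out : SL(2, ℤ)) y, fun τ => ?_, fun γ k => ?_,
    fun g => ?_⟩
  · have := Submodule.smul_mem _ (Fintype.card Q : ℂ)⁻¹ (sum_mem fun (q : Q) (_ : q ∈ Finset.univ) =>
      a.act (q.out : SL(2, ℤ))⁻¹ τ)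
    simp only [inv_inv, show ∀ q : Q, n ((q.out : SL(2, ℤ))⁻¹ • τ) = n τ from fun q =>
      Int.cast_injective (hd.inv _ (inv_mem q.out.2) τ)] at this
    rwa [Finset.sum_sub_distrib, Finset.sum_const, Finset.card_univ, smul_sub, ← Finset.mul_sum,
      ← Nat.cast_smul_eq_nsmul ℂ, inv_smul_smul₀ c0, ← mul_smul_comm] at this
  · rw [map_smul, map_sum]
    refine congrArg _ (Fintype.sum_equiv (MulAction.toPerm (⟨γ, k⟩ : Gamma0 N)) _ _ fun q => ?_)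
    have := QuotientGroup.eq.1 ((MulAction.Quotient.mk_smul_out _ (⟨γ, k⟩ : Gamma0 N) q).trans
      (QuotientGroup.out_eq' _).symm)
    rw [← AlgEquiv.mul_apply, ← map_mul, ← congrArg (act (γ * q.out)) (act_eq_self m this),
      ← AlgEquiv.mul_apply, ← map_mul]
    simp
  · rw [mul_smul_comm, Finset.mul_sum, map_smul, map_sum]
    refine Submodule.smul_mem _ _ (sum_mem fun q _ => ?_)
    have := b ((q.out : SL(2, ℤ))⁻¹ * g)
    rwa [mul_inv_rev, inv_inv, map_mul act, AlgEquiv.mul_apply, map_mul (act _),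
      act_eq_self jM_mem trivial] at this

end Ut

open Ut

/-- **functions with unitary multiplier** -/
theorem unt1 {N : ℕ} (hN : 0 < N) {n : ℍ → ℤ} (hd : Dv N (cs n)) (h0 : ws (4 * N) (cs n) 1 = 0) :
    ∃ (Ψ : ℍ → ℂ) (χ : SL(2, ℤ) → ℂ), Mero n Ψ ∧ Cus Ψ ∧
      ∀ γ ∈ Gamma0 N, ‖χ γ‖ = 1 ∧ ∀ z, Ψ (γ • z) = χ γ * Ψ z := by
  have : NeZero N := ⟨hN.ne'⟩
  obtain ⟨y, a, i, b⟩ := ex_Y hN hd h0
  obtain ⟨Ψ, m, o⟩ := a.exp
  have l := a.lm i b m o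
  have k : ∀ γ : SL(2, ℤ), ∃ c : ℂ, γ ∈ Gamma0 N → c ≠ 0 ∧ ∀ z, Ψ (γ • z) = c * Ψ z := fun γ => by
    by_cases k : γ ∈ Gamma0 N
    · obtain ⟨c, c0, e⟩ := rig2 (n := n) (Ψ := fun z => Ψ (γ • z)) isOpen_univ
        (by simpa [im_pos] using Bo.pre_im 0) (fun τ _ =>
          ⟨(Int.cast_injective (hd.inv γ k τ) : n (γ • τ) = n τ) ▸ MAt.smul (m (γ • τ)), by
            have := (o (γ • τ)).smul γ
            rwa [slash, i _ (inv_mem k)] at this⟩) fun τ _ => ⟨m τ, o τ⟩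
      exact ⟨c, fun _ => ⟨c0, fun z => e z trivial⟩⟩
    · exact ⟨0, fun s => (k s).elim⟩
  choose χ k using k
  obtain ⟨c, c0, t⟩ := l 1
  obtain ⟨z, hz⟩ := (t.eventually_ne c0).exists
  obtain ⟨f, g, F, G, s1, s2, p1, p2, e⟩ := EF.es0 hN (φ := fun γ => (Real.log ‖χ γ‖ : ℝ))
    (fun γ hγ δ hδ => by
      have : χ (γ * δ) = χ γ * χ δ := mul_right_cancel₀ hz (by
        rw [← (k _ (mul_mem hγ hδ)).2, mul_smul, (k _ hγ).2, (k _ hδ).2, mul_assoc])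
      simp only [this, norm_mul]
      rw [Real.log_mul (norm_ne_zero_iff.2 (k _ hγ).1) (norm_ne_zero_iff.2 (k _ hδ).1),
        Complex.ofReal_add])
    fun γ j _ hγ => by
      obtain ⟨c, c0, t⟩ := l γ
      have u : Tendsto (fun τ : ℍ => ModularGroup.T ^ j • τ) atImInfty atImInfty :=
        tendsto_comap_iff.2 (tendsto_comap.congr fun τ => by
          rw [Function.comp_apply, ← zpow_natCast, ModularGroup.im_T_zpow_smul])
      have : χ (γ * ModularGroup.T ^ j * γ⁻¹) * c = c :=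
        tendsto_nhds_unique (t.const_mul _) ((t.comp u).congr fun z => by
          rw [Function.comp_apply, ← (k _ hγ).2, mul_smul, mul_smul, inv_smul_smul])
      simp [(mul_eq_right₀ c0).1 this]
  have s := EF.s2_of ((EF.cf_of s1).add (EF.cf_of s2))
  have p := p1.add p2
  refine ⟨fun z => Ψ z * Complex.exp (-(F + G) z),
    fun γ => χ γ * Complex.exp (-((F + G) (γ • I) - (F + G) I)), fun w => ?_,
    Lm.cus fun γ => ?_, fun γ hγ => ⟨?_, fun z => ?_⟩⟩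
  · obtain ⟨u, u1, u0, e⟩ := m w
    exact ⟨fun z => u z * Complex.exp (-((F + G) ∘ ofComplex) z),
      u1.mul (an ⟨_, p.hol⟩ w).neg.cexp, mul_ne_zero u0 (Complex.exp_ne_zero _),
      e.mono fun z e => by simp only [e, mul_assoc, Function.comp_apply, ofComplex_apply]⟩
  · obtain ⟨c, c0, t⟩ := l γ
    obtain ⟨M, hM, hT⟩ := Inj.exists_width (Gamma0 N)
    obtain ⟨φ, f1, f2⟩ := EF.Co.cusp_fn s p hM (hT γ)
    exact ⟨_, mul_ne_zero c0 (Complex.exp_ne_zero _), t.mul (((f1.continuousAt.tendsto.comp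
      (qParam_tendsto_atImInfty (Nat.cast_pos.2 hM))).congr fun z => (f2 z).symm).neg.cexp)⟩
  · have q := congrArg Complex.re (e γ hγ I)
    simp only [per, Complex.ofReal_re, Complex.add_re, Complex.sub_re, Complex.conj_re] at q
    rw [norm_mul, Complex.norm_exp, show (-((F + G) (γ • I) - (F + G) I)).re = -Real.log ‖χ γ‖ by
      simp only [q, Pi.add_apply, Complex.add_re, Complex.neg_re, Complex.sub_re]; ring,
      Real.exp_neg, Real.exp_log (norm_pos_iff.2 (k γ hγ).1),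
      mul_inv_cancel₀ (norm_ne_zero_iff.2 (k γ hγ).1)]
  · dsimp only
    rw [(k γ hγ).2, ← p.period (s.slash γ hγ) z I, mul_mul_mul_comm, ← Complex.exp_add]
    congr 2
    ring

theorem unt {N : ℕ} (hN : 0 < N) {n : ℍ → ℤ} (hd : Dv N (cs n)) (h0 : ws (4 * N) (cs n) 1 = 0) :
    ∃ (i : ℕ) (Ψ : ℍ → ℂ) (χ : SL(2, ℤ) → ℂ), 0 < i ∧ Mero ((i : ℤ) • n) Ψ ∧ Cus Ψ ∧
      ∀ γ ∈ Gamma0 N, ‖χ γ‖ = 1 ∧ ∀ z, Ψ (γ • z) = χ γ * Ψ z :=
  let ⟨Ψ, χ, a, b⟩ := unt1 hN hd h0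
  ⟨1, Ψ, χ, one_pos, by rwa [Nat.cast_one, one_smul], b⟩

end Vale.Agent.P014T.Es
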