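import Vale.Agent.P004Z.Ar.Prt
import Vale.Agent.P004Z.Ar.Adj
import Vale.Agent.P004Z.EF.Core
import Vale.Agent.P004Z.W2.Smo

/-!
# The lattice of all modular symbols: the theorems of Manin and of Manin and Drinfeld
-/

set_option autoImplicit false
set_option linter.all false

open UpperHalfPlane CongruenceSubgroup Filter Topology ModularGroup
open scoped MatrixGroups Classical Real ComplexConjugate

noncomputable section

namespace Vale.Agent.P014T.Es

open P004N P004N.H461 Vale.Agent.P027M.ES Vale.Agent.P004Z Vale.Agent.P004Z.Ar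
open Vale.Agent.P004Z.EF (Par)
open Vale.Agent.P027H (IsLat)

/-- the value at the cusp `g ∞` -/
def cv (I : ℍ → ℂ) (g : SL(2, ℤ)) : ℂ := limUnder atImInfty fun z => I (g • z)

/-- the span of all symbols -/
def LL (I : ℍ → ℂ) : Submodule ℤ ℂ := Submodule.span ℤ (Set.range (cv I))

/-- the symbol `ξ {0, ∞}` -/
def sy (I : ℍ → ℂ) (ξ : SL(2, ℤ)) : ℂ := cv I ξ - cv I (ξ * S)

theorem neBot : (atImInfty).NeBot := by
  refine (atImInfty_basis.neBot_iff).2 fun {A} _ => ⟨⟨(|A| + 1 : ℝ) * Complex.I, ?_⟩, ?_⟩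
  · simp
    positivity
  · simpa using (le_abs_self A).trans (le_add_of_nonneg_right zero_le_one)

theorem cv_eq {I : ℍ → ℂ} {g : SL(2, ℤ)} {c : ℂ}
    (h : Tendsto (fun z => I (g • z)) atImInfty (𝓝 c)) : cv I g = c :=
  haveI := neBot
  h.limUnder_eq

theorem cv_mem (I : ℍ → ℂ) (g : SL(2, ℤ)) : cv I g ∈ LL I := Submodule.subset_span ⟨g, rfl⟩

theorem sy_mem (I : ℍ → ℂ) (g : SL(2, ℤ)) : sy I g ∈ LL I := sub_mem (cv_mem I _) (cv_mem I _)

theorem mb_top {m : M2} (h : 0 < m.det) (h0 : m 1 0 = 0) : Tendsto (mb m) atImInfty atImInfty := by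
  have : mb m = fun z => gl m h • z := funext fun z => dif_pos h
  rw [this]
  exact tendsto_smul_atImInfty (by simp [gl_apply, h0])

theorem sl_top {γ : SL(2, ℤ)} (h0 : γ 1 0 = 0) :
    Tendsto (fun z : ℍ => γ • z) atImInfty atImInfty :=
  (mb_top (m := γ.1) (by simp) h0).congr (mb_SL γ)

/-- the mirror image -/
def mi (g : SL(2, ℤ)) : SL(2, ℤ) := ⟨!![g 0 0, -g 0 1; -g 1 0, g 1 1], by
  rw [Matrix.det_fin_two_of, neg_mul_neg, ← Matrix.det_fin_two, g.2]⟩

theorem mi_smul (g : SL(2, ℤ)) (z : ℍ) : mi g • J • z = J • g • z := by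
  refine UpperHalfPlane.ext ?_
  rw [coe_J_smul, Hd.coe_sm, Hd.coe_sm, coe_J_smul, map_div₀, ← neg_div]
  simp [mi, add_comm]

section

variable {N : ℕ} {G : ℍ → ℂ} {a : ℕ → ℤ} {A B : ℤ} {w : ℕ} {Λ : Submodule ℤ ℂ} {I : ℍ → ℂ}
  {x y : P022.H218.L3.Mer} (h : RN N G a) (par : Par N a A B w Λ I x y)

include par in
theorem I_eq : I = (w : ℂ)⁻¹ • Pr fun n => (a n : ℂ) :=
  funext fun z => by rw [par.I_eq, div_eq_inv_mul]; rfl

include h par

theorem prim_I : Prim ((w : ℂ)⁻¹ • G) I :=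
  I_eq par ▸ (EF.prim_Pr h.qe (c_zero h.s2 h.qe)).smul _

theorem s2_I : S2 N ((w : ℂ)⁻¹ • G) := EF.s2_of ((EF.cf_of h.s2).smul _)

/-- periods -/
theorem per_eq {γ : SL(2, ℤ)} (k : γ ∈ Gamma0 N) (τ τ' : ℍ) : I (γ • τ) - I τ = I (γ • τ') - I τ' :=
  (prim_I h par).period ((s2_I h par).slash γ k) τ τ'

theorem per_mem {γ : SL(2, ℤ)} (k : γ ∈ Gamma0 N) (τ : ℍ) : I (γ • τ) - I τ ∈ Λ :=
  (par.per _).2 ⟨γ, k, fun τ' => per_eq h par k τ' τ⟩

theorem tend (g : SL(2, ℤ)) : Tendsto (fun z => I (g • z)) atImInfty (𝓝 (cv I g)) := by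
  have : NeZero N := ⟨h.pos.ne'⟩
  obtain ⟨n, hn, hw⟩ := Inj.exists_width (Gamma0 N)
  obtain ⟨φ, an, e⟩ := EF.Co.cusp_fn (s2_I h par) (prim_I h par) hn (hw g)
  have k : Tendsto (fun z => I (g • z)) atImInfty (𝓝 (φ 0)) := by
    simp only [e]
    exact an.continuousAt.tendsto.comp (qParam_tendsto_atImInfty (Nat.cast_pos.2 hn))
  rwa [cv_eq k]

theorem cv_one : cv I 1 = 0 := by
  obtain ⟨φ, an, p0, -, e⟩ := EF.Co.ex_phi h.s2 h.qe (c_zero h.s2 h.qe)
  refine cv_eq ?_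
  have := (an.continuousAt.tendsto.comp
    (qParam_tendsto_atImInfty (Nat.cast_pos.2 one_pos))).div_const (w : ℂ)
  rw [p0, zero_div] at this
  exact this.congr fun z => by rw [one_smul, par.I_eq, e]; rfl

theorem cv_left {γ : SL(2, ℤ)} (k : γ ∈ Gamma0 N) (g : SL(2, ℤ)) (τ : ℍ) :
    cv I (γ * g) = cv I g + (I (γ • τ) - I τ) :=
  cv_eq (((tend h par g).add_const _).congr fun z => by
    rw [mul_smul, per_eq h par k τ (g • z), add_sub_cancel])

theorem cv_right (g : SL(2, ℤ)) {u : SL(2, ℤ)} (k : u 1 0 = 0) : cv I (g * u) = cv I g :=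
  cv_eq (((tend h par g).comp (sl_top k)).congr fun z => by rw [mul_smul]; rfl)

theorem cv_T (g : SL(2, ℤ)) (k : ℤ) : cv I (g * T ^ k) = cv I g :=
  cv_right h par g (by simp [coe_T_zpow])

theorem cv_neg (g : SL(2, ℤ)) : cv I (-g) = cv I g := by
  rw [← mul_neg_one, cv_right h par g (by simp)]

theorem cv_per {γ : SL(2, ℤ)} (k : γ ∈ Gamma0 N) (τ : ℍ) : cv I γ = I (γ • τ) - I τ := by
  simpa [cv_one h par] using cv_left h par k 1 τ

theorem le : Λ ≤ LL I := fun z k => by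
  obtain ⟨γ, k, e⟩ := (par.per z).1 k
  rw [← e UpperHalfPlane.I, ← cv_per h par k]
  exact cv_mem I γ

theorem hecke {l : ℕ} (hl : l.Prime) (k : ¬ l ∣ N) (z : ℍ) :
    ∑ j, I (mb (al l j) z) = a l * I z := by
  rw [← Tdiv_eq hl, I_eq par, map_smul, tdiv_Pr hl h.qe,
    show Tc l (fun n => (a n : ℂ)) = (a l : ℂ) • fun n => (a n : ℂ) from funext (h.te l hl k),
    Pr_smul, smul_comm]
  rfl

omit h par in
/-- the Hecke neighbours of a cusp are equivalent to it -/
theorem nb {l : ℕ} (hl : l.Prime) (h1 : (N : ℤ) ∣ l - 1) (j : Option (Fin l)) (g : SL(2, ℤ)) :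
    ∃ (δ : SL(2, ℤ)) (k : ℤ) (u : M2), δ ∈ Gamma0 N ∧ 0 < u.det ∧ u 1 0 = 0 ∧
      al l j * g.1 = (δ * g * T ^ k).1 * u := by
  obtain ⟨g', p, b, d, pos, e⟩ := hermite (al l j * g.1)
    (by rw [Matrix.det_mul, g.2, mul_one]; exact al_pos hl j)
  have e1 : p * d = l := by
    have := congrArg Matrix.det e
    rwa [Matrix.det_mul, Matrix.det_mul, g.2, g'.2, al_det, Matrix.det_fin_two_of, mul_one,
      one_mul, mul_zero, sub_zero, eq_comm] at this
  have e2 : (N : ℤ) ∣ p ^ 2 - 1 ∧ (N : ℤ) ∣ p - d := by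
    rcases (Nat.prime_iff_prime_int.1 hl).irreducible.isUnit_or_isUnit e1.symm with u | u <;>
      rcases Int.isUnit_iff.1 u with rfl | rfl
    · exact ⟨by simp, by rw [show 1 - d = -(l - 1) by omega]; exact h1.neg_right⟩
    · exact ⟨by simp, by rwa [show -1 - d = l - 1 by omega]⟩
    · exact ⟨by rw [show p = l by omega, show (l : ℤ) ^ 2 - 1 = (l - 1) * (l + 1) by ring]
                exact h1.mul_right _, by rwa [show p - 1 = l - 1 by omega]⟩
    · exact ⟨by rw [show p = -l by omega, show (-l : ℤ) ^ 2 - 1 = (l - 1) * (l + 1) by ring]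
                exact h1.mul_right _, by rw [show p - -1 = -(l - 1) by omega]; exact h1.neg_right⟩
  obtain ⟨t, ht, t0, t1⟩ : ∃ t : ℤ, (N : ℤ) ∣ t - 1 ∧ (al l j * g.1) 1 0 = t * g 1 0 ∧
      (al l j * g.1) 1 1 = t * g 1 1 := by
    cases j
    · exact ⟨1, by simp, by simp [al, Matrix.mul_apply], by simp [al, Matrix.mul_apply]⟩
    · exact ⟨l, h1, by simp [al, Matrix.mul_apply], by simp [al, Matrix.mul_apply]⟩
  rw [e] at t0 t1
  simp only [Matrix.mul_apply, Fin.sum_univ_two, Matrix.of_apply, Matrix.cons_val', Matrix.cons_val_zero,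
    Matrix.cons_val_one, Matrix.cons_val_fin_one, mul_zero, add_zero] at t0 t1
  refine ⟨g' * T ^ (p * b) * g⁻¹, -(p * b), !![p, b; 0, d], Hd.g0_dvd.2 ?_,
    by rw [Matrix.det_fin_two_of]; simpa using pos, by simp, by
      rw [inv_mul_cancel_right, mul_assoc, ← zpow_add, add_neg_cancel, zpow_zero, mul_one, e]⟩
  obtain ⟨⟨c1, k1⟩, c2, k2⟩ := e2
  obtain ⟨c3, k3⟩ := ht
  have e3 : (g' * T ^ (p * b) * g⁻¹ : SL(2, ℤ)) 1 0 =
      g' 1 0 * g 1 1 - (g' 1 0 * (p * b) + g' 1 1) * g 1 0 := by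
    simp [Matrix.mul_apply, coe_T_zpow, Matrix.adjugate_fin_two]
    ring
  rw [e3]
  refine ⟨-c3 * (g' 1 0 * g 1 1 - (g' 1 0 * (p * b) + g' 1 1) * g 1 0) -
    g' 1 0 * g' 1 1 * c2 - g' 1 0 ^ 2 * b * c1, ?_⟩
  linear_combination (-(g' 1 0 * g 1 1 - (g' 1 0 * (p * b) + g' 1 1) * g 1 0)) * k3 -
    g' 1 0 * t1 + (g' 1 0 * (p * b) + g' 1 1) * t0 - g' 1 0 * g' 1 1 * k2 - g' 1 0 ^ 2 * b * k1

omit h par in
theorem nd {l : ℕ} (hl : l.Prime) (h1 : (N : ℤ) ∣ l - 1) : ¬ l ∣ N := fun d =>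
  (Nat.prime_iff_prime_int.1 hl).not_dvd_one (by
    simpa using dvd_sub (dvd_refl (l : ℤ)) ((Int.natCast_dvd_natCast.2 d).trans h1))

/-- **Manin and Drinfeld**, for one prime -/
theorem md1 {l : ℕ} (hl : l.Prime) (h1 : (N : ℤ) ∣ l - 1) (g : SL(2, ℤ)) :
    ((l + 1 - a l : ℤ) : ℂ) * cv I g ∈ Λ := by
  haveI := neBot
  choose δ k u hδ u0 u1 e using fun j => nb hl h1 j g
  have t := tendsto_finsetSum Finset.univ fun j _ =>
    (tend h par (δ j * g * T ^ k j)).comp (mb_top (u0 j) (u1 j))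
  have e1 := tendsto_nhds_unique (((tend h par g).const_mul (a l : ℂ)).congr fun z => by
    rw [← hecke h par hl (nd hl h1)]
    refine Finset.sum_congr rfl fun j _ => ?_
    rw [← mb_SL, ← mb_mul (al_pos hl j) (by simp), e, mb_mul (by simp) (u0 j), mb_SL]
    rfl) t
  simp only [cv_T h par, cv_left h par (hδ _) g UpperHalfPlane.I, Finset.sum_add_distrib,
    Finset.sum_const, Finset.card_univ, Fintype.card_option, Fintype.card_fin, nsmul_eq_mul] at e1
  have := neg_mem (Λ.sum_mem (t := Finset.univ) fun j _ => per_mem h par (hδ j) UpperHalfPlane.I)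
  convert this using 1
  push_cast at e1 ⊢
  linear_combination -e1

omit h par in
theorem ex_l (hN : 0 < N) (n : ℕ) : ∃ l : ℕ, l.Prime ∧ n < l ∧ (N : ℤ) ∣ l - 1 := by
  obtain ⟨l, h1, h2, h3⟩ := Nat.exists_prime_gt_modEq_one n hN.ne'
  exact ⟨l, h1, h2, by simpa using h3.symm.dvd⟩

/-- **Manin and Drinfeld** -/
theorem md : ∃ n : ℕ, 0 < n ∧ ∀ z ∈ LL I, n * z ∈ Λ := by
  obtain ⟨l, hl, -, h1⟩ := ex_l h.pos 0
  have n0 : (l + 1 - a l : ℤ) ≠ 0 := sub_ne_zero.2 (triv N G a h l hl (nd hl h1)).1.symm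
  refine ⟨(l + 1 - a l : ℤ).natAbs, Int.natAbs_pos.2 n0, fun z hz => ?_⟩
  have k : ((l + 1 - a l : ℤ) : ℂ) * z ∈ Λ := by
    induction hz using Submodule.span_induction with
    | mem _ k => obtain ⟨g, rfl⟩ := k; exact md1 h par hl h1 g
    | zero => simp
    | add _ _ _ _ p q => rw [mul_add]; exact add_mem p q
    | smul c _ _ p => rw [mul_smul_comm]; exact Λ.smul_mem c p
  rw [← Int.cast_natCast]
  rcases Int.natAbs_eq (l + 1 - a l : ℤ) with e | e
  · rwa [← e]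
  · rw [← neg_mem_iff, ← neg_mul, ← Int.cast_neg, ← e]
    exact k

theorem lat : IsLat (LL I) := by
  obtain ⟨n, n0, k⟩ := md h par
  exact par.lat.of_between (le h par) n0 k

/-- **Manin** -/
theorem manin : LL I = Submodule.span ℤ (Set.range (sy I)) := by
  refine le_antisymm (Submodule.span_le.2 ?_) (Submodule.span_le.2 ?_)
  · rintro _ ⟨g, rfl⟩
    have m : ∀ g, sy I g ∈ Submodule.span ℤ (Set.range (sy I)) := fun g =>
      Submodule.subset_span ⟨g, rfl⟩
    have hg : g ∈ Subgroup.closure {S, T} := SpecialLinearGroup.SL2Z_generators ▸ trivial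
    induction hg using Subgroup.closure_induction_right with
    | one => rw [SetLike.mem_coe, cv_one h par]; exact zero_mem _
    | mul_right g _ u hu ih =>
      rcases hu with rfl | rfl
      · simpa [sy] using sub_mem ih (m g)
      · rwa [← zpow_one T, cv_T h par]
    | mul_inv_cancel g _ u hu ih =>
      rcases hu with rfl | rfl
      · simpa [sy] using add_mem ih (m (g * S⁻¹))
      · rwa [← zpow_neg_one T, cv_T h par]
  · rintro _ ⟨g, rfl⟩
    exact sy_mem I g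

omit h in
theorem I_cj (z : ℍ) : I (J • z) = conj (I z) := by
  rw [par.I_eq, par.I_eq, map_div₀, map_natCast, Pr, Pr, Complex.conj_tsum]
  refine congrArg (· / _) (tsum_congr fun n => ?_)
  rw [map_mul, ← Complex.exp_conj, coe_J_smul]
  simp [map_ofNat]

theorem cv_mi (g : SL(2, ℤ)) : cv I (mi g) = conj (cv I g) := by
  haveI := neBot
  exact tendsto_nhds_unique ((tend h par (mi g)).comp (tendsto_smul_atImInfty (g := J) (by simp [J])))
    (((Complex.continuous_conj.tendsto _).comp (tend h par g)).congr fun z => by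
      simp only [Function.comp, mi_smul, I_cj par])

theorem cj_mem {z : ℂ} (hz : z ∈ LL I) : conj z ∈ LL I := by
  induction hz using Submodule.span_induction with
  | mem _ k => obtain ⟨g, rfl⟩ := k; exact cv_mi h par g ▸ cv_mem I _
  | zero => simp
  | add _ _ _ _ p q => rw [map_add]; exact add_mem p q
  | smul c _ _ p => rw [map_zsmul]; exact Submodule.smul_mem _ c p

end

end Vale.Agent.P014T.Es
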