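import Vale.Agent.P014T.Es.Ab1
import Vale.Agent.P014T.Es.Unt
import Vale.Agent.P014T.Pu.Pb
import Vale.Agent.P014T.Pu.Ey
import Vale.Agent.P014T.Dg.Pz

/-!
# The easy half of Abel's theorem on the upper half plane
-/

set_option autoImplicit false
set_option linter.all false

open UpperHalfPlane CongruenceSubgroup Filter Topology IntermediateField
open scoped MatrixGroups Classical Real

noncomputable section

namespace Vale.Agent.P014T.Es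

open P004N Vale.Agent.P027M.ES Vale.Agent.P004Z Vale.Agent.P004Z.Ar Vale.Agent.P019P P025H492
open P004N.H461 hiding ee ps
open Vale.Agent.P022.H218.L3 Vale.Agent.P004Z.Ar.Fn Vale.Agent.P014T.Pu
open Vale.Agent.P022K.F0.Cf hiding MF
open Vale.Agent.P004H.H666 (crv)
open Vale.Agent.P027H (IsLat wp dwp mem_of_eq)
open Vale.Agent.P014T.Z (Cov ix)

variable {M N S : ℕ} {n : ℍ → ℤ} {F I G : ℍ → ℂ} {Λ : Submodule ℤ ℂ} {τ τ' : ℍ}

/-! ### sums over orbits -/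

theorem ws_mem (h : ∀ z, n z ≠ 0 → F z ∈ Λ) : ws M (cs n) F ∈ Λ :=
  finsum_induction (· ∈ Λ) Λ.zero_mem (fun _ _ => Λ.add_mem) fun q => by
    by_cases e : n q.out = 0
    · simp [cs, e]
    · simpa [cs] using Λ.smul_mem (n q.out) (h _ e)

theorem ws_sub' {A : ℍ → ℂ} (h : Dv M A) (F F' : ℍ → ℂ) :
    ws M A (F - F') = ws M A F - ws M A F' := by
  simp only [ws, Pi.sub_apply, mul_sub]
  exact finsum_sub_distrib (h.sup' F) (h.sup' F')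

theorem cs_add (m n : ℍ → ℤ) : cs (m + n) = cs m + cs n := funext fun _ => Int.cast_add _ _

theorem cs_smul (r : ℤ) (n : ℍ → ℤ) : cs (r • n) = (r : ℂ) • cs n := funext fun _ => Int.cast_mul _ _

theorem cs_sub (m n : ℍ → ℤ) : cs (m - n) = cs m + (-1 : ℂ) • cs n := funext fun _ => by
  simp [cs, sub_eq_add_neg]

theorem cs_T (l : PA S) (n : ℍ → ℤ) : cs (hz (FreeAlgebra.ι ℤ l) n) = Tdiv l.1 (cs n) := by
  rw [cs_hz, FreeAlgebra.lift_ι_apply]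

theorem cs_C (r : ℤ) (n : ℍ → ℤ) :
    cs (hz (algebraMap ℤ (FreeAlgebra ℤ (PA S)) r) n) = (r : ℂ) • cs n := by
  rw [← cs_smul]
  simp

theorem dv_hz (hM : 0 < M) (hS : M ∣ S) (P : FreeAlgebra ℤ (PA S)) :
    ∀ n, Dv M (cs n) → Dv M (cs (hz P n)) := by
  induction P using FreeAlgebra.induction with
  | grade0 r => exact fun n h => cs_C r n ▸ h.smul r
  | grade1 l => exact fun n h => cs_T l n ▸ h.tdiv l.2.1 fun d => l.2.2 (d.trans hS)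
  | mul a b ha hb => exact fun n h => by simpa using ha _ (hb n h)
  | add a b ha hb => exact fun n h => by simpa [cs_add] using (ha n h).add (hb n h)

theorem ws_hz (hM : 0 < M) (h4 : 4 ∣ M) (hS : M ∣ S) (hF : Inv M F) {e : PA S → ℤ}
    (he : ∀ (l : PA S) z, Tdiv l.1 F z - e l * F z ∈ Λ) (P : FreeAlgebra ℤ (PA S)) :
    ∀ n, Dv M (cs n) →
      ws M (cs (hz P n)) F - (FreeAlgebra.lift ℤ e P : ℤ) * ws M (cs n) F ∈ Λ := by
  induction P using FreeAlgebra.induction with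
  | grade0 r => exact fun n h => by rw [cs_C, ws_smul]; simp
  | grade1 l =>
    intro n h
    rw [cs_T, ((adj M l hM l.2.1 fun d => l.2.2 (d.trans hS)).2 _ h).2 h4 F hF,
      FreeAlgebra.lift_ι_apply, ← ws_smul', ← ws_sub' h]
    exact ws_mem fun z _ => he l z
  | mul a b ha hb =>
    exact fun n h => mem_of_eq (add_mem (ha _ (dv_hz hM hS b n h))
      (Λ.smul_mem (FreeAlgebra.lift ℤ e a) (hb n h))) (by simp; ring)
  | add a b ha hb =>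
    exact fun n h => mem_of_eq (add_mem (ha n h) (hb n h)) (by
      simp only [map_add, LinearMap.add_apply, cs_add,
        ws_add (dv_hz hM hS a n h) (dv_hz hM hS b n h)]
      push_cast
      ring)

/-- the orbit of a point -/
def orb (N : ℕ) (τ0 τ : ℍ) : ℤ := if ∃ γ ∈ Gamma0 N, γ • τ0 = τ then 1 else 0

theorem orb_ne : orb N τ τ' ≠ 0 ↔ ∃ γ ∈ Gamma0 N, γ • τ = τ' := by
  rw [orb, ite_ne_right_iff, and_iff_left one_ne_zero]

theorem dv_orb (N : ℕ) (τ : ℍ) : Dv N (cs (orb N τ)) :=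
  ⟨fun γ k z => congrArg Int.cast (if_congr ⟨fun ⟨δ, a, b⟩ => ⟨γ⁻¹ * δ, mul_mem (inv_mem k) a, by
      rw [mul_smul, b, inv_smul_smul]⟩, fun ⟨δ, a, b⟩ => ⟨γ * δ, mul_mem k a, by
      rw [mul_smul, b]⟩⟩ rfl rfl), {τ}, fun z k =>
    let ⟨γ, a, b⟩ := orb_ne.1 (Int.cast_ne_zero.1 k)
    ⟨γ⁻¹, inv_mem a, by simp [← b]⟩⟩

theorem ws_orb (hN : 0 < N) (h : ∀ γ : SL(2, ℤ), γ • τ = τ → γ = 1 ∨ γ = -1) :
    ws (4 * N) (cs (orb N τ)) 1 = ix N := by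
  have : NeZero (4 * N) := ⟨by omega⟩
  have := Subgroup.fintypeQuotientOfFiniteIndex (H := (Gamma0 (4 * N)).subgroupOf (Gamma0 N))
  rw [ws_eq ((dv_orb N τ).inv.mono (Dvd.intro_left 4 rfl)) (fun _ _ _ => rfl)
    (T := Finset.univ (α := Gamma0 N ⧸ (Gamma0 (4 * N)).subgroupOf (Gamma0 N)))
    (p := fun c => (c.out : SL(2, ℤ))⁻¹ • τ) (fun z k => ?_) fun c _ c' _ _ γ k e => ?_,
    Finset.sum_congr rfl (g := fun _ => 1) fun c _ => by
      simp only [cs, orb, if_pos (⟨_, inv_mem c.out.2, rfl⟩ : ∃ γ ∈ Gamma0 N, γ • τ = _)]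
      simp]
  · simp [ix, Subgroup.relIndex, Subgroup.index]
  · obtain ⟨γ, a, rfl⟩ := orb_ne.1 (Int.cast_ne_zero.1 k)
    obtain ⟨δ, e⟩ := QuotientGroup.mk_out_eq_mul ((Gamma0 (4 * N)).subgroupOf (Gamma0 N)) ⟨γ, a⟩⁻¹
    exact ⟨_, Finset.mem_univ _, δ.1.1⁻¹, inv_mem δ.2, by
      rw [← mul_smul, congrArg Subtype.val e]; simp⟩
  · rw [← c.out_eq', ← c'.out_eq', QuotientGroup.eq, Subgroup.mem_subgroupOf]
    have m : -γ⁻¹ ∈ Gamma0 (4 * N) := by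
      have := Gamma0_mem.1 (inv_mem k)
      rwa [Gamma0_mem, Matrix.SpecialLinearGroup.coe_neg, Matrix.neg_apply, Int.cast_neg,
        neg_eq_zero]
    rcases h (c'.out * γ * c.out.1⁻¹) (by rw [mul_smul, mul_smul, e, smul_inv_smul]) with l | l
    · convert inv_mem k using 1
      rw [mul_inv_eq_one] at l
      simp [← l]
    · convert m using 1
      rw [mul_inv_eq_iff_eq_mul, neg_one_mul, ← neg_eq_iff_eq_neg] at l
      simp [← l]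

/-- an invariant function -/
def Fo (M : ℕ) (I : ℍ → ℂ) (τ : ℍ) : ℂ := I (cl M τ).out

theorem Fo_inv : Inv M (Fo M I) := fun γ k z => by rw [Fo, cl_eq.2 ⟨γ, k, rfl⟩, Fo]

theorem Fo_sub (h : ∀ γ ∈ Gamma0 M, ∀ τ, I (γ • τ) - I τ ∈ Λ) (τ : ℍ) : Fo M I τ - I τ ∈ Λ :=
  let ⟨γ, a, b⟩ := ex_out M τ
  (congrArg I b).subst (motive := fun u => u - I τ ∈ Λ) (h γ a τ)

/-! ### places -/

theorem pt_iff (hM : 0 < M) (h4 : 4 ∣ M) :
    pt (Gamma0 M) τ = pt _ τ' ↔ ∃ γ ∈ Gamma0 M, γ • τ = τ' :=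
  ⟨fun e => let ⟨γ, a, b⟩ := pt_fix (g0_le h4) e
    ⟨γ, inv_mem_iff.1 (EF.Gn.stab hM (b _ (EF.Gn.jN_mem hM))), a⟩, fun ⟨_, m, e⟩ => e ▸ pt_mv m τ⟩

theorem dv_pl (hM : 0 < M) (h4 : 4 ∣ M) {D : Plk ℂ (MF (Gamma0 M)) →₀ ℤ}
    (e : ∀ τ, D (pt _ τ) = n τ) : Dv M (cs n) :=
  ⟨fun γ k z => by rw [cs, cs, ← e, ← e, ← pt_mv k],
    D.support.image (Function.invFun (pt _)), fun z k =>
      let ⟨γ, a, b⟩ := (pt_iff hM h4).1 (Function.invFun_eq (f := pt (Gamma0 M)) ⟨z, rfl⟩).symm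
      ⟨γ, a, b ▸ Finset.mem_image_of_mem _ (Finsupp.mem_support_iff.2
        (e z ▸ Int.cast_ne_zero.1 k))⟩⟩

section

variable {a b : ℂ} {ex : ℂ →+ (crv a b).Point}

theorem S_ws [NeZero M] [CFF ℂ (MF (Gamma0 M))] (h4 : 4 ∣ M) {u v : MF (Gamma0 M)} (c : Cd a b u v)
    {ξ : (crv u v).Point} (e1 : ∀ τ, sp c (pt _ τ) ξ = ex (F τ)) (e2 : ∀ g, sp c (cp _ g) ξ = 0)
    (hF : Inv M F) {D : Plk ℂ (MF (Gamma0 M)) →₀ ℤ} (e : ∀ τ, D (pt _ τ) = n τ) :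
    Pu.S c ξ D = ex (ws M (cs n) F) := by
  have d := dv_pl (NeZero.pos M) h4 e
  obtain ⟨s, hs⟩ := d.reps
  rw [ws_reps hs (fun γ k z => Int.cast_injective (d.inv γ k z)) hF, evd, map_sum,
    S_eq c ξ (T := s.image (pt _)) fun P k => ?_, Finset.sum_image fun z p w q l =>
      let ⟨γ, m, l⟩ := (pt_iff (NeZero.pos M) h4).1 l
      hs.uq z p w q γ m l]
  · exact Finset.sum_congr rfl fun z _ => by rw [e, e1, ← map_zsmul, zsmul_eq_mul]
  · rcases all_pl P with ⟨τ, rfl⟩ | ⟨g, rfl⟩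
    · refine .inl (by_contra fun l => k ?_)
      obtain ⟨γ, m, l⟩ := hs.ex τ (e τ ▸ l)
      exact pt_mv m τ ▸ Finset.mem_image_of_mem _ l
    · exact .inr (e2 g)

theorem od_x {x : Mer} (w : Wp Λ I x) (h : 2 * I τ ∉ Λ) :
    od τ (x - algebraMap ℂ Mer (wp Λ (I τ))) = er I τ := by
  have k : I τ ∉ Λ := fun k => h (by simpa using Λ.smul_mem 2 k)
  obtain ⟨-, g, h1, h2, h3⟩ := loc_I w.hol w.nc τ
  obtain ⟨p, hp⟩ := w.lat.analyticAt_wp k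
  refine (od_of (Ψ := fun z => wp Λ (I z) - wp Λ (I τ))
    ⟨fun z => g z * dslope (wp Λ) (I τ) (I (ofComplex z)), h1.mul (AnalyticAt.comp (g := dslope _ _)
      (by simpa using hp.has_fpower_series_dslope_fslope.analyticAt) (an_I w.hol τ)),
      mul_ne_zero h2 (by
        simpa [(w.lat.hasDerivAt_wp k).deriv] using mt (w.lat.dwp_eq_zero k).1 h),
      h3.mono fun z e => ?_⟩ ?_).2.1
  · simp only [← sub_smul_dslope (wp Λ), e, ofComplex_apply, zpow_natCast, smul_eq_mul, mul_assoc]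
  · filter_upwards [((Ae.cont w.hol).tendsto τ).eventually (w.lat.notMem_nhds k)] with z l _
    rw [ev_sub (val_ev (w.xv z l)).1 (reg_const z _), ev_const, (val_ev (w.xv z l)).2]

theorem ux_sub (u : Ux Λ ex) {s t : ℂ} : ex s = ex t ↔ s - t ∈ Λ := by
  rw [← u.ker, map_sub, sub_eq_zero]

end

theorem ex_t (hL : IsLat Λ) (s : ℂ) : ∃ t, 2 * t ∉ Λ ∧ 2 * (t + s) ∉ Λ := by
  by_contra! k
  refine not_countable_complex ((((Dg.cnt_lat hL).preimage (f := fun t : ℂ => 2 * t)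
    (mul_right_injective₀ two_ne_zero)).union ((Dg.cnt_lat hL).preimage
      (f := fun t : ℂ => 2 * (t + s)) ((mul_right_injective₀ two_ne_zero).comp
        (add_left_injective s)))).mono fun t _ => or_iff_not_imp_left.2 (k t))

theorem half {t : ℂ} (h : 2 * t ∉ Λ) : t ∉ Λ := fun k => h (by simpa using Λ.smul_mem 2 k)

variable {a : ℕ → ℤ} {A B : ℤ} {w : ℕ} {x y : Mer} (h : RN N G a) (p : ParY N a A B w I x y)
include h p

theorem rel : ∃ m : ℕ, (∀ c, Cov (LL I) c → (m * c * w ^ 2 : ℂ) = 4 * π ^ 2 * pet2 N G G) ∧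
    ∀ (n : ℍ → ℤ) s t (f : MF (Gamma0 N)), f ≠ 0 → 2 * t ∉ LL I → 2 * (t + s) ∉ LL I →
      (∀ τ, od τ (f : Mer) = n τ - (pb (LL I) I (t + s) τ - pb (LL I) I t τ)) →
      ws (4 * N) (cs n) (Fo (4 * N) I) - (m * ix N : ℕ) * s ∈ LL I := by
  obtain ⟨_, _, _, _, _, q⟩ := p.par
  have N4 : 0 < 4 * N := mul_pos four_pos h.pos
  have : NeZero (4 * N) := ⟨N4.ne'⟩
  have := cff (Gamma0 (4 * N))
  have le := g0_le (Dvd.intro_left 4 rfl : N ∣ 4 * N)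
  have W : Wp (LL I) I x := ⟨p.lat, hol_I h q, nc_I h q, p.xv⟩
  have d := fun c => Dg.fdeg' (c := c) h p.wpos p.I_eq p.lat p.inv (x := ⟨x, p.xm⟩)
    (y := ⟨y, p.ym⟩) p.xv p.yv
  refine ⟨_, d, fun n s t f f0 t0 t1 e => ?_⟩
  have P : Dg.Pa (Gamma0 (4 * N)) (LL I) I ⟨x, MF_mono le p.xm⟩ ⟨y, MF_mono le p.ym⟩ :=
    ⟨p.lat, W.hol, W.nc, p.xv, p.yv⟩
  obtain ⟨c, c0, hc⟩ := Dg.ex_cov p.lat
  obtain ⟨u, v, k1, k2, rfl⟩ := Dg.cov_pos p.lat hc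
  have d' := Dg.fdeg N4 P (fun γ k => p.inv γ (le k)) k1 k2 (Dg.der_of h.qe h.zero p.I_eq)
  have w0 : (w : ℂ) ≠ 0 := Nat.cast_ne_zero.2 p.wpos.ne'
  rw [Dg.nm_c, Dg.pet_idx N4 (Dvd.intro_left 4 rfl) h.s2 h.s2] at d'
  replace d := d _ hc
  generalize Module.finrank (adjoin ℂ {(⟨x, p.xm⟩ : MF (Gamma0 N)), ⟨y, p.ym⟩}) (MF (Gamma0 N)) = m at d ⊢
  obtain ⟨ex, U⟩ := ex_ux (a := -P027H.g2 (LL I) / 4) (b := -P027H.g3 (LL I) / 4) p.lat (by ring)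
    (by ring) P.cd.hD
  have e1 : ∀ τ, sp P.cd (pt _ τ) (.some _ _ P.ns) = ex (I τ) := fun τ =>
    (sp_pt (P.cd.up Mer) P.cd rfl rfl τ _).trans
      ((congrArg _ (mp_some _ _ _ _)).trans (W.rd _ p.yv U _ τ))
  have k : ∀ t, 2 * t ∉ LL I → ∀ τ, fB P.cd P.ns P.tr (Finsupp.single (ex t) 1) (pt _ τ) =
      pb (LL I) I t τ := fun t t0 τ => by
    obtain ⟨n', j⟩ := U.xy _ (half t0)
    rw [j, fB_ord _ _ _ n' (by
      rw [← j, ← map_nsmul, Ne, U.ker, nsmul_eq_mul]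
      exact t0)]
    refine if_ctx_congr ((sp_eq_some P.cd P.ns n').symm.trans (by rw [e1, ← j, ux_sub U]))
      (fun m => ?_) fun _ => rfl
    rw [ord_pt (g0_le (Dvd.intro _ rfl)), ← p.lat.wp_congr m]
    exact od_x W fun j => t0 (mem_of_eq (sub_mem j ((LL I).smul_mem 2 m)) (by simp; ring))
  have n0 : (⟨f, MF_mono le f.2⟩ : MF (Gamma0 (4 * N))) ≠ 0 := fun j =>
    f0 (Subtype.ext (congrArg Subtype.val j :))
  have := S_ws (n := n) (F := Fo (4 * N) I) (ex := ex) (Dvd.intro _ rfl) P.cd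
    (fun τ => (e1 τ).trans ((ux_sub U).2 (Fo_sub (fun γ k => p.inv γ (le k)) τ)).symm)
    (fun g => sp_pole _ _ ((W.cusp (tend h q g)).2 (cv_mem I g))) Fo_inv
    (D := dv ℂ _ + (_ - _)) fun τ => (congrArg₂ (· + ·) ((dv_apply _ _).trans
      (ord_pt (g0_le (Dvd.intro _ rfl)) τ ⟨f, MF_mono le f.2⟩))
        (congrArg₂ (· - ·) (k _ t1 τ) (k _ t0 τ))).trans (by rw [e, sub_add_cancel])
  rw [map_add, map_sub, S_fB, S_fB, abel _ _ n0, sm_single, sm_single, one_smul, one_smul,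
    zero_add, ← smul_sub, ← map_sub, add_sub_cancel_left, ← map_nsmul,
    eq_comm, ux_sub U, nsmul_eq_mul] at this
  refine mem_of_eq this (congrArg (_ - · * s) (mul_right_cancel₀ (mul_ne_zero
    (Complex.ofReal_ne_zero.2 c0.ne') (pow_ne_zero 2 w0)) ?_))
  push_cast at d' ⊢
  rw [← mul_assoc _ _ (_ ^ 2), ← mul_assoc _ _ (_ ^ 2), d', ix]
  field_simp
  linear_combination ((Gamma0 (4 * N)).relIndex (Gamma0 N)) * d

/-- **Abel, with the exact point** -/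
theorem abl1 : ∃ (P : FreeAlgebra ℤ (PA (4 * N))) (m : ℕ),
    FreeAlgebra.lift ℤ (fun l : PA (4 * N) => a l.1) P ≠ 0 ∧
    (∀ c, Cov (LL I) c → (m * c * w ^ 2 : ℂ) = 4 * π ^ 2 * pet2 N G G) ∧
    ∀ (Q : FreeAlgebra ℤ (PA (4 * N))) (τ0 τ1 : ℍ), (∀ γ : SL(2, ℤ), γ • τ0 = τ0 → γ = 1 ∨ γ = -1) →
      (∀ γ : SL(2, ℤ), γ • τ1 = τ1 → γ = 1 ∨ γ = -1) → ∃ k : ℕ, 0 < k ∧ ∀ s t : ℂ,
        s - (k * FreeAlgebra.lift ℤ (fun l : PA (4 * N) => a l.1) (P * Q) : ℤ) * (I τ0 - I τ1) ∈ LL I →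
        t ∉ LL I → t + s ∉ LL I → Pc N ((k * m : ℤ) • hz (P * Q) (orb N τ0 - orb N τ1) -
          (pb (LL I) I (t + s) - pb (LL I) I t)) 0 1 := by
  obtain ⟨_, _, _, _, _, q⟩ := p.par
  have N4 : 0 < 4 * N := mul_pos four_pos h.pos
  have d4 : N ∣ 4 * N := Dvd.intro_left 4 rfl
  have : NeZero (4 * N) := ⟨N4.ne'⟩
  obtain ⟨P, P0, -, hP⟩ := abl0 h q N4.ne' d4
  obtain ⟨m, hm, r⟩ := rel h p
  refine ⟨P, m, P0, hm, fun Q τ0 τ1 f0 f1 => ?_⟩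
  have d : Dv N (cs (orb N τ0 - orb N τ1)) := cs_sub _ _ ▸ (dv_orb N τ0).add ((dv_orb N τ1).smul _)
  have e : ∀ F, ws (4 * N) (cs (orb N τ0 - orb N τ1)) F =
      ws (4 * N) (cs (orb N τ0)) F - ws (4 * N) (cs (orb N τ1)) F := fun F => by
    rw [cs_sub, ws_add ((dv_orb N τ0).mono N4 d4) (((dv_orb N τ1).mono N4 d4).smul _), ws_smul]
    ring
  obtain ⟨k, s0, k0, hk⟩ := hP _ (unt h.pos (dv_hz h.pos d4 Q _ d) (by
    have := ws_hz (Λ := ⊥) (F := 1) (e := fun l => (l.1 + 1 : ℤ)) N4 (Dvd.intro _ rfl) dvd_rfl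
      (fun _ _ _ => rfl) (fun l z => by simp [Tdiv_eq l.2.1]) Q _ (d.mono N4 d4)
    rwa [e, ws_orb h.pos f0, ws_orb h.pos f1, sub_self, mul_zero, sub_zero] at this))
  have inv := Fo_sub fun γ k => p.inv γ (g0_le d4 k)
  have o : ∀ τ, (∀ γ : SL(2, ℤ), γ • τ = τ → γ = 1 ∨ γ = -1) →
      ws (4 * N) (cs (orb N τ)) (Fo (4 * N) I) - I τ * ix N ∈ LL I := fun τ f => by
    rw [← ws_orb h.pos f, ← ws_smul', ← ws_sub' ((dv_orb N τ).mono N4 d4)]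
    refine ws_mem fun z l => ?_
    obtain ⟨γ, j, rfl⟩ := orb_ne.1 l
    exact mem_of_eq (add_mem (inv (γ • τ)) (p.inv γ j τ)) (by
      rw [sub_add_sub_cancel, Pi.sub_apply, Pi.smul_apply, Pi.one_apply, smul_eq_mul, mul_one])
  obtain ⟨t0, a0, a1⟩ := ex_t p.lat s0
  obtain ⟨f, n0, -, l, -⟩ := (hk 1 t0 (half a0) (by simpa using half a1)).fn h.pos
  have r1 := r _ s0 t0 f n0 a0 a1 (by simpa only [Int.cast_one, one_mul, Pi.sub_apply] using l)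
  have r2 := ws_hz (e := fun l => a l.1) N4 (Dvd.intro _ rfl) dvd_rfl Fo_inv (fun l z => by
    rw [Tdiv_eq l.2.1]
    exact mem_of_eq (sub_mem ((LL I).sum_mem (t := Finset.univ) fun j _ => inv (mb (al l j) z))
      ((LL I).smul_mem (a l) (inv z))) (by
        rw [Finset.sum_sub_distrib, hecke h q l.2.1 fun j => l.2.2 (j.trans d4), zsmul_eq_mul]
        ring)) (P * Q) _ (d.mono N4 d4)
  rw [cs_smul, ws_smul, ← Module.End.mul_apply, ← map_mul] at r1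
  refine ⟨k * ix N, mul_pos k0 (Nat.pos_of_ne_zero
    (Subgroup.FiniteIndex.index_ne_zero (H := (Gamma0 (4 * N)).subgroupOf (Gamma0 N)))),
    fun s t j t0 t1 => ?_⟩
  have j' : t + (m * ix N : ℕ) * s0 - (t + s) ∈ LL I := mem_of_eq (sub_mem (sub_mem
    ((LL I).smul_mem k (add_mem r2 ((LL I).smul_mem (FreeAlgebra.lift ℤ (fun l : PA (4 * N) => a l.1)
      (P * Q)) (sub_mem (o _ f0) (o _ f1))))) r1) j) (by
      simp only [e, zsmul_eq_mul]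
      push_cast
      ring)
  have := hk (m * ix N : ℕ) t t0 fun l => t1 (mem_of_eq (sub_mem l j') (by push_cast; ring))
  rwa [Int.cast_natCast, pb_congr j', ← Module.End.mul_apply, ← map_mul,
    show ((m * ix N : ℕ) * k : ℤ) = (k * ix N : ℕ) * m by push_cast; ring] at this

end Vale.Agent.P014T.Es
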