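import Vale.Agent.P297Y.An.Spn
import Vale.Agent.P027M.K.Loc

/-! # P014T, block ES: descent of functions with rational divisor (helper87) -/

set_option autoImplicit false
set_option linter.all false

open TensorProduct

noncomputable section

namespace Vale.Agent.P014T.Es

open Vale.Agent.P019P P027M.K

theorem dsc {C K C' K' : Type} [Field C] [Field K] [Field C'] [Field K'] [Algebra C K] [CFF C K]
    [Algebra C' K'] [CFF C' K'] [CharZero C] {i : C →+* C'} {j : K →+* K'} (h : P025H816.IsBC i j)
    {w : K'} (w0 : w ≠ 0) (hw : ∀ y : Plk C' K', ord y w ≠ 0 → ∃ z, ord y (j z) ≠ 0) :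
    ∃ (c : C') (z : K), w = algebraMap C' K' c * j z := by
  classical
  letI : Algebra C C' := i.toAlgebra
  letI : Algebra K K' := j.toAlgebra
  letI : Algebra C K' := (j.comp (algebraMap C K)).toAlgebra
  haveI : IsScalarTower C K K' := IsScalarTower.of_algebraMap_eq fun _ => rfl
  haveI : IsScalarTower C C' K' := IsScalarTower.of_algebraMap_eq h.comm
  have hb : P025H941.IsBC C K C' K' := by
    refine ⟨fun hv => h.indep hv, fun z => ?_⟩
    let S : Subfield K' := Subfield.closure (P025H941.spn K C' K' : Set K')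
    let R : Subring K' :=
      { carrier := P025H941.spn K C' K'
        mul_mem' := P025H941.spn_mul C
        one_mem' := P025H941.one_mem_spn
        add_mem' := add_mem
        zero_mem' := zero_mem _
        neg_mem' := neg_mem }
    have hz : z ∈ S := h.gen S (fun a => Subfield.subset_closure (P025H941.mem_spn_right a))
      (fun a => Subfield.subset_closure (P025H941.mem_spn_left a)) ▸ Subfield.mem_top z
    obtain ⟨a, ha, b, hb, rfl⟩ := Subfield.mem_closure_iff.1 hz
    have le : Subring.closure (P025H941.spn K C' K' : Set K') ≤ R := Subring.closure_le.2 le_rfl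
    by_cases b0 : b = 0
    · exact ⟨0, zero_mem _, 1, P025H941.one_mem_spn, one_ne_zero, by simp [b0]⟩
    · exact ⟨a, le ha, b, le hb, b0, rfl⟩
  obtain ⟨t, ht⟩ := P025H941.exists_can (C := C) (P297Y.mem_spn_of hb (w := w) fun y hy =>
    mem_Mge.2 (Or.inr (by
      by_contra hc
      exact hy (hw y (by omega)))))
  let b := Module.Basis.ofVectorSpace C C'
  obtain ⟨f, rfl⟩ := (equivFinsuppOfBasisRight (M := K) b).symm.surjective t
  rw [equivFinsuppOfBasisRight_symm_apply, Finsupp.sum, map_sum] at ht
  simp only [P025H941.can_tmul] at ht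
  change ∑ l ∈ f.support, j (f l) * algebraMap C' K' (b l) = w at ht
  obtain ⟨l₀, h₀⟩ : f.support.Nonempty := Finset.nonempty_of_sum_ne_zero (ht ▸ w0)
  have j0 (l) (m : l ∈ f.support) : j (f l) ≠ 0 := (map_ne_zero j).2 (Finsupp.mem_support_iff.1 m)
  have od (y : Plk C' K') (u v : K') (u0 : u ≠ 0) (v0 : v ≠ 0) : ord y (u / v) = ord y u - ord y v := by
    rw [div_eq_mul_inv, ord_mul y u0 (inv_ne_zero v0), ord_inv, sub_eq_add_neg]
  have key (y : Plk C' K') : ord y w ≤ ord y (j (f l₀)) := by
    rcases P025H816.restr h.comm y with h1 | ⟨P, e, he, -, h1⟩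
    · rw [h1]
      by_contra hc
      obtain ⟨z, hz⟩ := hw y (by omega)
      exact hz (h1 z)
    obtain ⟨m, hm, mi⟩ := f.support.exists_min_image (fun l => ord P (f l)) ⟨l₀, h₀⟩
    have m0 := Finsupp.mem_support_iff.1 hm
    have hv (l) : ∃ c, l ∈ f.support → Val P (f l / f m) c := by
      by_cases ml : l ∈ f.support
      · obtain ⟨c, hc⟩ := exists_val (P := P) (z := f l / f m) (mem_Mge.2 (Or.inr (by
          rw [div_eq_mul_inv, ord_mul P (Finsupp.mem_support_iff.1 ml) (inv_ne_zero m0), ord_inv]
          have := mi l ml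
          omega)))
        exact ⟨c, fun _ => hc⟩
      · exact ⟨0, fun a => absurd a ml⟩
    choose v hv using hv
    have up (z c) (a : Val P z c) : Val y (j z) (i c) := by
      rw [Val, ← h.comm, ← map_sub, mem_Mge, h1]
      rcases mem_Mge.1 a with a | a
      · exact Or.inl (by rw [a, map_zero])
      · exact Or.inr (by nlinarith)
    have h2 := Val.sum (P := y) f.support fun l ml => (up _ _ (hv l ml)).mul (Val.const y (b l))
    have h3 : ∑ l ∈ f.support, j (f l / f m) * algebraMap C' K' (b l) = w / j (f m) := by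
      rw [← ht, Finset.sum_div]
      exact Finset.sum_congr rfl fun l _ => by rw [map_div₀]; ring
    have h4 : ∑ l ∈ f.support, i (v l) * b l ≠ 0 := fun a => by
      have := linearIndependent_iff'.1 b.linearIndependent f.support v a m hm
      have q := hv m hm
      rw [div_self m0, this] at q
      exact one_ne_zero ((Val.one P).unique q)
    rw [h3] at h2
    have h5 := (h2.unit h4).2
    rw [od y _ _ w0 (j0 m hm), h1] at h5
    rw [h1]
    have := mi l₀ h₀
    nlinarith
  obtain ⟨c, hc⟩ : ∃ c, j (f l₀) / w = algebraMap C' K' c := by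
    by_contra hc
    obtain ⟨y, hy⟩ := exists_pole fun a e => hc ⟨a, e⟩
    rw [od y _ _ (j0 _ h₀) w0] at hy
    have := key y
    omega
  have c0 : algebraMap C' K' c ≠ 0 := hc ▸ div_ne_zero (j0 _ h₀) w0
  refine ⟨c⁻¹, f l₀, ?_⟩
  rw [map_inv₀, ← hc]
  have := j0 _ h₀
  field_simp

end Vale.Agent.P014T.Es
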