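import Vale.Agent.P014T.Dc.Fb
import Vale.Agent.P014T.Es.Dsc
import Vale.Agent.P004Z.Ar.Plc
import Vale.Agent.P025.R2.H816.BC4

/-!
# P014T, block ES: descent of modular functions to the algebraic numbers
-/

set_option linter.all false

noncomputable section

open UpperHalfPlane CongruenceSubgroup Filter Topology
open scoped MatrixGroups IntermediateField

namespace Vale.Agent.P014T.Es

open Vale.Agent.P022 H218.L3 H236.L3 P027M.M P019P P025H816 Dc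
open P022K.F0.Cf hiding MF
open P004Z.Ar.Fn hiding act_inv cff od_j
open P027M.K (Val exists_val)

namespace Qd

variable {Γ : Subgroup SL(2, ℤ)} {l : ℕ}

/-- the complex level field is generated by the algebraic one -/
theorem bcG (hl : Lv l) : IsBC (io : Qb →+* ℂ) (cvL (Gamma l)) := by
  obtain ⟨X⟩ := mdl
  haveI := fi_gamma hl.pos (le_refl (Gamma l))
  refine ⟨fun a => Subtype.ext (cv_alg a), fun S h1 h2 => eq_top_iff.2 fun x _ => ?_⟩
  have m : (x : Mer) ∈ MF (Gt l) := mem_MF_of_fixed _ x.2 fun γ k => (mem_Gt.1 k).elim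
    (act_eq_self x.2) fun k' => by rw [← Galx.act_neg]; exact act_eq_self x.2 k'
  rw [(x_bc l _ (grp l hl).2.2.1).1, L_Gt X] at m
  let T : IntermediateField ℂ Mer := (S.map (algebraMap (MF (Gamma l)) Mer)).toIntermediateField
    fun a => ⟨_, h1 a, rfl⟩
  have le : IntermediateField.adjoin ℂ ((fun x => cv x) '' (L (Gamma l) : Set FF)) ≤ T :=
    IntermediateField.adjoin_le_iff.2 (by
      rintro _ ⟨z, hz, rfl⟩
      exact ⟨_, h2 ⟨z, hz⟩, rfl⟩)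
  obtain ⟨y, hy, e⟩ := le m
  exact (Subtype.ext e : y = x) ▸ hy

/-- the value at a cusp -/
theorem val_cp [Γ.FiniteIndex] [CFF ℂ (MF Γ)] {x : MF Γ} {g : SL(2, ℤ)} {c : ℂ}
    (h : Tendsto (fun τ => ev (g • τ) (x : Mer)) atImInfty (𝓝 c)) : Val (cp Γ g) x c := by
  set u : MF Γ := x - algebraMap ℂ _ c with hu
  obtain ⟨_, _, -, -, r⟩ := cusp_mer (act_core g⁻¹ x.2)
  have e : act g⁻¹ (u : Mer) = act g⁻¹ (x : Mer) - algebraMap ℂ Mer c := by
    rw [← (act g⁻¹).commutes c, ← map_sub]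
    rfl
  have t : Tendsto (fun τ => ev τ (act g⁻¹ (u : Mer))) atImInfty (𝓝 0) := by
    rw [← sub_self c]
    refine (h.sub_const c).congr' (r.mono fun τ k => ?_)
    show _ = ev τ (act g⁻¹ (u : Mer))
    rw [e, ev_sub k.1 (reg_const τ c), ev_const, ev_act]
  have ru : ∀ᶠ τ in atImInfty, Reg τ (act g⁻¹ (u : Mer)) := r.mono fun τ k => by
    rw [e]
    exact (pl τ).sub_mem k.1 (reg_const τ c)
  refine mem_Mge.2 ((eq_or_ne u 0).imp id fun u0 => ?_)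
  show 1 ≤ ord (cp Γ g) u
  by_contra hc
  have m : u⁻¹ ∈ (cp Γ g).1 := (mem_iff_ord _ _).2 (Or.inr (by rw [ord_inv]; omega))
  obtain ⟨r', c', t'⟩ := mem_cp.1 m
  have e1 : act g⁻¹ (u : Mer) * act g⁻¹ ((u⁻¹ : MF Γ) : Mer) = algebraMap ℂ Mer 1 := by
    rw [← map_mul, ← MulMemClass.coe_mul, mul_inv_cancel₀ u0, map_one]
    exact map_one _
  have t2 := (t.mul t').congr' ((ru.and r').mono fun τ k => (ev_mul k.1 k.2).symm)
  simp only [e1, ev_const, zero_mul] at t2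
  exact one_ne_zero (tendsto_nhds_unique tendsto_const_nhds t2)

theorem ord_j [Γ.FiniteIndex] [CFF ℂ (MF Γ)] (g : SL(2, ℤ)) : ord (cp Γ g) (jG Γ) < 0 := by
  by_contra h
  have m : jG Γ ∈ (cp Γ g).1 := (mem_iff_ord (cp Γ g) (jG Γ)).2 (Or.inr (not_lt.1 h))
  rw [mem_cp] at m
  exact j_not g⁻¹ m

theorem cvL_j (Γ : Subgroup SL(2, ℤ)) : cvL Γ (jL Γ) = jG Γ := Subtype.ext cv_jF

/-- a place of the algebraic level field at which `j` has a pole is a cusp -/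
theorem ex_cp (hl : Lv l) [CFF Qb (L (Gamma l))] {Q : Plk Qb (L (Gamma l))} (n : jL _ ∉ Q.1) :
    ∃ g : SL(2, ℤ), ∀ (z : L (Gamma l)) (a : Qb),
      Tendsto (fun τ => ev (g • τ) (cv z)) atImInfty (𝓝 (io a)) → Val Q z a := by
  haveI := fi_gamma hl.pos (le_refl (Gamma l))
  haveI := P004Z.Ar.Fn.cff (Gamma l)
  have bc := bcG hl
  obtain ⟨P, m, o, -⟩ := bc.exists_unique_above Q
  obtain ⟨τ, rfl⟩ | ⟨g, rfl⟩ := all_pl P
  · exact absurd ((m _).2 (cvL_j _ ▸ (j_mem _).2 ⟨τ, rfl⟩)) n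
  refine ⟨g, fun z a t => ?_⟩
  have v : Val (cp (Gamma l) g) (cvL _ z) (io a) := val_cp t
  have e : cvL _ z - algebraMap ℂ _ (io a) = cvL _ (z - algebraMap Qb _ a) := by
    rw [map_sub, bc.comm]
    rfl
  have v' := mem_Mge.1 v
  rw [e, o, map_eq_zero] at v'
  exact mem_Mge.2 v'

end Qd

open Qd in
/-- **descent to the algebraic numbers** -/
theorem qbd0 {N : ℕ} (hN : 0 < N) {h : MF (Gamma0 N)} (h0 : h ≠ 0)
    (cu : ∀ g : SL(2, ℤ), Tendsto (fun τ => ev (g • τ) (h : Mer)) atImInfty (𝓝 1))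
    (al : ∀ τ, od τ (h : Mer) ≠ 0 → ∃ z ∈ L (Gamma0 N), od τ (cv z) ≠ 0) :
    ∃ f ∈ L (Gamma0 N), cv f = h ∧ ∀ (l : ℕ) [CFF Qb (L (Gamma l))] (z : L (Gamma l))
      (Q : Plk Qb (L (Gamma l))), Lv l → (z : FF) = f → jL _ ∉ Q.1 → Val Q z 1 := by
  have hl : Lv (4 * N) := ⟨by omega, dvd_mul_right _ _⟩
  haveI fi := fi_gamma hl.pos (le_refl (Gamma (4 * N)))
  haveI := P004Z.Ar.Fn.cff (Gamma (4 * N))
  haveI := Dc.cff _ fi
  have g0 : ∀ M, Gamma M ≤ Gamma0 M := fun M γ k => Gamma0_mem.2 (Gamma_mem.1 k).2.2.1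
  have l1 : Gamma (4 * N) ≤ Gamma0 N := (mul_comm N 4 ▸ gamma_le).trans (g0 N)
  have l2 : Gamma (4 * N) ≤ Gamma0 4 := gamma_le.trans (g0 4)
  have bc := bcG hl
  let w : MF (Gamma (4 * N)) := ⟨h, MF_mono l1 h.2⟩
  have w0 : w ≠ 0 := fun e => h0 (Subtype.ext (congrArg Subtype.val e :))
  obtain ⟨c, z, e⟩ := dsc bc w0 fun y k => by
    obtain ⟨τ, rfl⟩ | ⟨g, rfl⟩ := all_pl y
    · rw [ord_pt l2] at k
      obtain ⟨z, m, o⟩ := al τ k
      exact ⟨⟨z, L_mono l1 m⟩, by rw [ord_pt l2]; exact o⟩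
    · exact ⟨jL _, by rw [cvL_j]; exact (ord_j g).ne⟩
  have v : Val (cp _ 1) w 1 := val_cp (cu 1)
  obtain o | ⟨P, k, hk, -, o⟩ := restr bc.comm (cp (Gamma (4 * N)) 1)
  · exact absurd (cvL_j _ ▸ o (jL _)) (ord_j 1).ne
  have c0 : c ≠ 0 := fun c0 => w0 (by rw [e, c0, map_zero, zero_mul])
  have z0 : z ≠ 0 := fun c0 => w0 (by rw [e, c0, map_zero, mul_zero])
  have o1 := (v.unit one_ne_zero).2
  rw [e, ord_mul _ ((map_ne_zero _).2 c0) ((map_ne_zero _).2 z0), ord_const, zero_add, o] at o1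
  obtain ⟨a, ha⟩ := exists_val (P := P) (z := z)
    (mem_Mge.2 (Or.inr ((mul_eq_zero.1 o1).resolve_left hk.ne').ge))
  have v1 : Val (cp (Gamma (4 * N)) 1) (cvL _ z) (io a) := by
    have e : cvL _ z - algebraMap ℂ _ (io a) = cvL _ (z - algebraMap Qb _ a) := by
      rw [map_sub, bc.comm]
      rfl
    refine mem_Mge.2 ?_
    rw [e, o, map_eq_zero]
    exact (mem_Mge.1 ha).imp id fun p => mul_pos hk p
  have e2 : c * io a = 1 := ((Val.const _ c).mul v1).unique (e ▸ v)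
  have e3 : cv (algebraMap Qb FF a⁻¹ * z) = h := by
    rw [map_mul, cv_alg, map_inv₀, ← eq_inv_of_mul_eq_one_left e2]
    exact (congrArg Subtype.val e).symm
  refine ⟨_, fun γ k => by rw [e3]; exact act_eq_self h.2 k, e3, fun l _ u Q hl hu n => ?_⟩
  obtain ⟨g, hg⟩ := ex_cp hl n
  refine hg u 1 ?_
  rw [hu, e3, map_one]
  exact cu g

theorem qbd {N : ℕ} (hN : 0 < N) {h : MF (Gamma0 N)} (h0 : h ≠ 0) (cm : P004Z.Ar.CuM h)
    (cu : ∀ g : SL(2, ℤ), Tendsto (fun τ => ev (g • τ) (h : Mer)) atImInfty (𝓝 1))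
    (al : ∀ τ, od τ (h : Mer) ≠ 0 → ∃ z ∈ L (Gamma0 N), od τ (cv z) ≠ 0) :
    ∃ f ∈ L (Gamma0 N), cv f = h ∧ ∀ (l : ℕ) [CFF Qb (L (Gamma l))] (z : L (Gamma l))
      (Q : Plk Qb (L (Gamma l))), Lv l → (z : FF) = f → jL _ ∉ Q.1 → Val Q z 1 :=
  qbd0 hN h0 cu al

end Vale.Agent.P014T.Es
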