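import Vale.Agent.P014T.Es.Md
import Vale.Agent.P004Z.Ar.Abl
import Vale.Agent.P004Z.Ar.Fun

/-!
# Unitary functions with values at the cusps
-/

set_option autoImplicit false
set_option linter.all false

open UpperHalfPlane CongruenceSubgroup Filter Topology ModularGroup
open scoped MatrixGroups Classical Real ComplexConjugate

noncomputable section

namespace Vale.Agent.P014T.Es

open P004N Vale.Agent.P027M.ES Vale.Agent.P004Z Vale.Agent.P004Z.Ar
open P004N.H461 hiding ee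
open Vale.Agent.P004Z.Ar.Rl Vale.Agent.P004Z.Ar.Te Vale.Agent.P022.H218.L3
open Vale.Agent.P004Z.Bo (MAt)
open Vale.Agent.P027H (IsLat mem_of_eq)

variable {N : ℕ} {n n' : ℍ → ℤ} {φ φ' : ℍ → ℝ} {Ψ : ℍ → ℂ} {c c' : SL(2, ℤ) → ℂ}

/-- the invariant function -/
def kf (φ : ℍ → ℝ) (Ψ : ℍ → ℂ) (z : ℍ) : ℂ := Ψ z * ee (-φ z : ℝ)

theorem norm_kf (z : ℍ) : ‖kf φ Ψ z‖ = ‖Ψ z‖ := by rw [kf, norm_mul, norm_ee, mul_one]

theorem kf_inv (h : Un N n φ Ψ) {γ : SL(2, ℤ)} (k : γ ∈ Gamma0 N) (z : ℍ) :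
    kf φ Ψ (γ • z) = kf φ Ψ z := by
  rw [kf, kf, h.law γ k, mul_right_comm, ← ee_add, mul_comm]
  congr 2
  push_cast
  ring

theorem ev0 (h : Un N n φ Ψ) (g : SL(2, ℤ)) : ∀ᶠ z in atImInfty, n (g • z) = 0 := by
  obtain ⟨y, k⟩ := h.cus.ne g
  exact (Fn.ev_im y).mono fun z b => (h.mero.zero_iff _).2 (k z b)

theorem cus_of (h : ∀ g : SL(2, ℤ), c g ≠ 0 ∧
    Tendsto (fun z => kf φ Ψ (g • z)) atImInfty (𝓝 (c g))) : Cus Ψ := fun g => by
  have p := norm_pos_iff.2 (h g).1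
  have l := (h g).2.norm
  simp only [norm_kf] at l
  generalize ‖c g‖ = r at p l
  obtain ⟨y, hy⟩ := (atImInfty_mem _).1 ((l.eventually_const_le
    (inv_lt_of_inv_lt₀ p (by linarith : r⁻¹ < r + r⁻¹))).and
      (l.eventually_le_const (lt_add_of_pos_right r (inv_pos.2 p))))
  exact ⟨r + r⁻¹, y, by positivity, fun z hz => hy z hz.le⟩

/-- `n` is the divisor of a unitary function with the values `c` at the cusps -/
def Pc (N : ℕ) (n : ℍ → ℤ) (φ : ℍ → ℝ) (c : SL(2, ℤ) → ℂ) : Prop := Continuous φ ∧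
  ∃ Ψ, Un N n φ Ψ ∧ ∀ g : SL(2, ℤ), Tendsto (fun z => kf φ Ψ (g • z)) atImInfty (𝓝 (c g))

namespace Pc

theorem ne (h : Pc N n φ c) (g : SL(2, ℤ)) : c g ≠ 0 := by
  obtain ⟨-, Ψ, u, l⟩ := h
  obtain ⟨C, y, C0, k⟩ := u.cus g
  haveI := neBot
  exact norm_pos_iff.1 ((inv_pos.2 C0).trans_le (ge_of_tendsto (l g).norm
    ((Fn.ev_im y).mono fun z b => (k z b).1.trans_eq (norm_kf _).symm)))

theorem left (h : Pc N n φ c) {γ : SL(2, ℤ)} (k : γ ∈ Gamma0 N) (g : SL(2, ℤ)) :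
    c (γ * g) = c g := by
  obtain ⟨-, Ψ, u, l⟩ := h
  haveI := neBot
  exact tendsto_nhds_unique (l _) ((l g).congr fun z => by rw [mul_smul, kf_inv u k])

theorem right (h : Pc N n φ c) (g : SL(2, ℤ)) (k : ℤ) : c (g * T ^ k) = c g := by
  obtain ⟨-, Ψ, u, l⟩ := h
  haveI := neBot
  exact tendsto_nhds_unique (l _) (((l g).comp (sl_top (γ := T ^ k) (by simp [coe_T_zpow]))).congr
    fun z => by rw [mul_smul]; rfl)

theorem add (h : Pc N n φ c) (h' : Pc N n' φ' c') : Pc N (n + n') (φ + φ') (c * c') := by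
  obtain ⟨a, Ψ, u, l⟩ := h
  obtain ⟨a', Ψ', u', l'⟩ := h'
  obtain ⟨F, v, e⟩ := u.mul u' a a'
  refine ⟨a.add a', F, v, fun g => ((l g).mul (l' g)).congr' ?_⟩
  filter_upwards [ev0 u g, ev0 u' g] with z k k'
  rw [kf, kf, kf, e _ k k', mul_mul_mul_comm, ← ee_add, Pi.add_apply, neg_add, Complex.ofReal_add]

theorem neg (h : Pc N n φ c) : Pc N (-n) (-φ) c⁻¹ := by
  have k := h.ne
  obtain ⟨a, Ψ, u, l⟩ := h
  exact ⟨a.neg, _, u.neg, fun g => ((l g).inv₀ (k g)).congr fun z => by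
    rw [kf, kf, mul_inv, ← ee_neg, Pi.neg_apply, Complex.ofReal_neg (-φ _)]; rfl⟩

theorem sub (h : Pc N n φ c) (h' : Pc N n' φ' c') : Pc N (n - n') (φ - φ') (c * c'⁻¹) := by
  simpa only [sub_eq_add_neg] using h.add h'.neg

theorem pow (h : Pc N n φ c) (k : ℕ) : Pc N ((k : ℤ) • n) ((k : ℝ) • φ) (c ^ k) := by
  obtain ⟨a, Ψ, u, l⟩ := h
  refine ⟨a.const_smul _, _, u.pow k, fun g => ((l g).pow k).congr fun z => ?_⟩
  rw [kf, kf, mul_pow, ee, ← Complex.exp_nat_mul, ee]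
  congr 2
  simp
  ring

theorem zsmul (h : Pc N n φ 1) (k : ℤ) : Pc N (k • n) ((k : ℝ) • φ) 1 := by
  obtain ⟨k, rfl | rfl⟩ := k.eq_nat_or_neg
  · simpa using h.pow k
  · simpa using (h.pow k).neg

theorem one {κ : ℂ} (h : Pc N n φ fun _ => κ) : Pc N n φ 1 := by
  have k := inv_ne_zero (h.ne 1)
  obtain ⟨a, Ψ, u, l⟩ := h
  have l' : ∀ g : SL(2, ℤ), Tendsto (fun z => kf φ (fun z => κ⁻¹ * Ψ z) (g • z)) atImInfty (𝓝 1) :=
    fun g => by simpa only [inv_mul_cancel₀ (mt inv_eq_zero.2 k), kf, mul_assoc] using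
      (l g).const_mul κ⁻¹
  exact ⟨a, _, ⟨fun w => MAt.cmul (u.mero w) k, cus_of (c := 1) fun g => ⟨one_ne_zero, l' g⟩,
    fun γ m z => by rw [u.law γ m, mul_left_comm]⟩, l'⟩

/-- the Hecke operators -/
theorem hecke (h : Pc N n φ c) {l : ℕ} (hl : l.Prime) (hM : ¬ l ∣ N)
    {r : SL(2, ℤ) → Option (Fin l) → SL(2, ℤ)}
    (hr : ∀ g j, ∃ u : M2, 0 < u.det ∧ u 1 0 = 0 ∧ al l j * g.1 = (r g j).1 * u) :
    Pc N (fun z => ∑ j, n (mb (al l j) z)) (fun z => ∑ j, φ (mb (al l j) z))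
      fun g => ∏ j, c (r g j) := by
  obtain ⟨c0, Ψ, h, lm⟩ := h
  have l0 : (l : ℂ) ≠ 0 := Nat.cast_ne_zero.2 hl.ne_zero
  have a : ∀ j, Continuous (mb (al l j)) ∧
      Mero (fun z => n (mb (al l j) z)) fun z => Ψ (mb (al l j) z) := fun j => by
    rcases j with _ | j
    · exact h.mero.aff (b := 0) l0 fun z => by rw [coe_mb (al_pos hl _)]; simp [al]
    · exact h.mero.aff (b := (j : ℕ) / l) (inv_ne_zero l0) fun z => by
        rw [coe_mb (al_pos hl _)]; simp [al]; ring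
  obtain ⟨F, h1, h2⟩ := Mero.prod Finset.univ fun j => (a j).2
  rw [show (∑ j, fun z => n (mb (al l j) z)) = fun z => ∑ j, n (mb (al l j) z) from
    funext fun z => Finset.sum_apply _ _ _] at h1
  have a1 := fun j => (a j).1
  refine ⟨by fun_prop, F, ⟨h1, (Cus.prod Finset.univ fun j => h.cus.mb (al_pos hl j)).congr
    fun z hz => ?_, fun γ hγ => h1.law γ ?_ (fun z => norm_ee _) fun w => ?_⟩, fun g => ?_⟩
  · rw [Finset.prod_apply] at hz ⊢
    exact h2 z fun j => (h.mero.zero_iff _).2 (Finset.prod_ne_zero_iff.1 hz j (Finset.mem_univ j))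
  · have := cont_smul γ
    unfold ee
    fun_prop
  · obtain ⟨σ, δ, hσ, k⟩ := (EF.cor_T hl hM).2 γ hγ
    have e : ∀ j z, mb (al l j) (γ • z) = δ j • mb (al l (σ j)) z := fun j z => by
      rw [← mb_SL, ← mb_mul (al_pos hl j) (by simp), (k j).2, mb_al hl]
    have b := Finite.injective_iff_bijective.1 hσ
    filter_upwards [eventually_all.2 fun j => nhdsWithin_le_nhds ((a j).2.ev w),
      self_mem_nhdsWithin] with z h3 hz
    rw [h2 z fun j => h3 j hz, h2 _ fun j => by rw [e, h.inv _ (k j).1]; exact h3 _ hz,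
      ← b.sum_comp fun j => φ (mb (al l j) z), ← b.prod_comp fun j => Ψ (mb (al l j) z),
      ← Finset.sum_sub_distrib, Complex.ofReal_sum, ee_sum, ← Finset.prod_mul_distrib]
    exact Finset.prod_congr rfl fun j _ => by rw [e, h.law _ (k j).1]
  · choose u u0 u1 e using hr g
    have e1 : ∀ j z, mb (al l j) (g • z) = r g j • mb (u j) z := fun j z => by
      rw [← mb_SL, ← mb_mul (al_pos hl j) (by simp), e, mb_mul (by simp) (u0 j), mb_SL]
    refine (tendsto_finset_prod Finset.univ fun j _ =>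
      (lm (r g j)).comp (mb_top (u0 j) (u1 j))).congr' ?_
    filter_upwards [eventually_all.2 fun j => (mb_top (u0 j) (u1 j)).eventually (ev0 h (r g j))]
      with z k
    rw [kf, h2 _ fun j => by rw [e1]; exact k j, ← Finset.sum_neg_distrib, Complex.ofReal_sum,
      ee_sum, ← Finset.prod_mul_distrib]
    exact Finset.prod_congr rfl fun j _ => by rw [e1]; rfl

theorem hecke1 (h : Pc N n φ 1) {l : ℕ} (hl : l.Prime) (hM : ¬ l ∣ N) :
    Pc N (fun z => ∑ j, n (mb (al l j) z)) (fun z => ∑ j, φ (mb (al l j) z)) 1 := by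
  choose r p b d pos e using fun (g : SL(2, ℤ)) j => hermite (al l j * g.1)
    (by rw [Matrix.det_mul, g.2, mul_one]; exact al_pos hl j)
  simpa [Pi.one_def] using h.hecke hl hM (r := r) fun g j =>
    ⟨_, by rw [Matrix.det_fin_two_of]; simpa using pos g j, by simp, e g j⟩

/-- `T_l - l - 1` normalises -/
theorem nrm (h : Pc N n φ c) {l : ℕ} (hl : l.Prime) (h1 : (N : ℤ) ∣ l - 1) :
    Pc N ((fun z => ∑ j, n (mb (al l j) z)) - ((l + 1 : ℕ) : ℤ) • n)
      ((fun z => ∑ j, φ (mb (al l j) z)) - ((l + 1 : ℕ) : ℝ) • φ) 1 := by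
  choose δ k u m e using fun g j => nb hl h1 j g
  have := (h.hecke hl (nd hl h1) (r := fun g j => δ g j * g * T ^ k g j) fun g j =>
    ⟨u g j, e g j⟩).sub (h.pow (l + 1))
  rwa [show (fun g => ∏ j, c (δ g j * g * T ^ k g j)) * (c ^ (l + 1))⁻¹ = 1 from funext fun g => by
    simp [h.right, h.left (m _ _), pow_ne_zero _ (h.ne g)]] at this

/-- the function -/
theorem fn (hN : 0 < N) (h : Pc N n 0 c) : ∃ x : MF (Gamma0 N), x ≠ 0 ∧ CuM x ∧
    (∀ τ, P022K.F0.Cf.od τ (x : Mer) = n τ) ∧ ∀ g : SL(2, ℤ),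
      Tendsto (fun τ => P022K.F0.Cf.ev (g • τ) (x : Mer)) atImInfty (𝓝 (c g)) := by
  have : NeZero N := ⟨hN.ne'⟩
  obtain ⟨-, Ψ, u, l⟩ := h
  obtain ⟨x, x0, k, e⟩ := Fn.fun1 u
  exact ⟨x, x0, k, fun τ => (e τ).1, fun g => (l g).congr fun z => by simp [kf, ee, (e _).2]⟩

end Pc

/-- the values at the cusps exist -/
theorem ex_c (hN : 0 < N) {g F : ℍ → ℂ} (h1 : S2 N g) (h2 : Prim g F)
    (h : Un N n (fun z => (F z).re) Ψ) : ∃ c, Pc N n (fun z => (F z).re) c := by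
  have : NeZero N := ⟨hN.ne'⟩
  obtain ⟨M, hM, hw⟩ := Inj.exists_width (Gamma0 N)
  have q := qParam_tendsto_atImInfty (h := M) (Nat.cast_pos.2 hM)
  have k : ∀ γ : SL(2, ℤ), ∃ c, Tendsto (fun z => kf (fun z => (F z).re) Ψ (γ • z)) atImInfty
      (𝓝 c) := fun γ => by
    obtain ⟨C, y, C0, k⟩ := h.cus γ
    obtain ⟨u, a, e⟩ := EF.Co.cusp_fn h1 h2 hM (hw γ)
    obtain ⟨v, b, d⟩ := Fn.cusp (F := fun τ => Ψ (γ • τ)) hM (fun τ => by
        have := h.law _ (hw γ) (γ • τ)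
        rw [mul_smul, mul_smul, inv_smul_smul,
          (cusp_prim cusp (EF.cf_of h1) h2 hM (hw γ)).2] at this
        simpa [ee] using this)
      ((ev0 h γ).mono fun τ b => (MAt.an (MAt.smul (b ▸ h.mero (γ • τ)))).differentiableAt)
      (Asymptotics.IsBigO.of_bound C ((Fn.ev_im y).mono fun τ b => by simpa using (k τ b).2))
    have t : ContinuousAt (fun z => v z * ee (-(u z).re : ℝ)) 0 := by
      have := a.continuousAt
      have := b.continuousAt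
      unfold ee
      fun_prop
    exact ⟨_, (t.tendsto.comp q).congr fun z => by rw [kf, d, e]; rfl⟩
  choose c hc using k
  exact ⟨c, cre h2, Ψ, h, hc⟩

end Vale.Agent.P014T.Es
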