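import Vale.Agent.P014T.Es.Ab0
import Vale.Agent.P004Z.W2.Proj
import Vale.Agent.P004Z.Bo.Uni
import Vale.Agent.P004Z.Ar.Unf

/-!
# The hard half of Abel's theorem, normalised at all cusps
-/

set_option autoImplicit false
set_option linter.all false

open UpperHalfPlane CongruenceSubgroup Filter Topology ModularGroup
open scoped MatrixGroups Classical Real ComplexConjugate Manifold

noncomputable section

namespace Vale.Agent.P014T.Es

open P004N Vale.Agent.P027M.ES Vale.Agent.P004Z Vale.Agent.P004Z.Ar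
open P004N.H461 hiding ee ps
open Vale.Agent.P004Z.Ar.Rl Vale.Agent.P004Z.Ar.Te Vale.Agent.P022.H218.L3
open Vale.Agent.P004Z.Bo (MAt)
open Vale.Agent.P004Z.EF (Par)
open Vale.Agent.P027H (IsLat mem_of_eq)

/-- the ramification -/
def er (I : ℍ → ℂ) (τ : ℍ) : ℕ := analyticOrderNatAt (fun z => I (ofComplex z) - I τ) τ

/-- the pull-back of the point `t` -/
def pb (Λ : Submodule ℤ ℂ) (I : ℍ → ℂ) (t : ℂ) (τ : ℍ) : ℤ := if I τ - t ∈ Λ then er I τ else 0

/-- `T_l` on divisors -/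
def Tz (l : ℕ) : Module.End ℤ (ℍ → ℤ) where
  toFun n z := ∑ j, n (mb (al l j) z)
  map_add' _ _ := funext fun _ => Finset.sum_add_distrib
  map_smul' _ _ := funext fun _ => (Finset.mul_sum _ _ _).symm

/-- polynomials in the Hecke operators on divisors -/
abbrev hz {S : ℕ} (P : FreeAlgebra ℤ (PA S)) : Module.End ℤ (ℍ → ℤ) :=
  FreeAlgebra.lift ℤ (fun l : PA S => Tz l.1) P

theorem cs_hz {S : ℕ} (P : FreeAlgebra ℤ (PA S)) : ∀ n,
    cs (hz P n) = FreeAlgebra.lift ℤ (fun l : PA S => Tdiv l.1) P (cs n) := by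
  induction P using FreeAlgebra.induction with
  | grade0 r => exact fun n => funext fun z => by simp [cs]
  | grade1 l => exact fun n => funext fun z => by simp [cs, Tz, Tdiv_eq l.2.1]
  | mul a b ha hb => exact fun n => by simp [ha, hb]
  | add a b ha hb => exact fun n => funext fun z => by simp [← ha, ← hb, cs]

section

variable {I : ℍ → ℂ} {Λ : Submodule ℤ ℂ} {θ : ℂ → ℂ} {b : ℝ} {N : ℕ} {t : ℂ} {z : ℍ}

theorem pb_congr {t' : ℂ} (h : t - t' ∈ Λ) : pb Λ I t = pb Λ I t' := funext fun z =>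
  if_congr ⟨fun k => mem_of_eq (add_mem k h) (by ring), fun k => mem_of_eq (sub_mem k h) (by ring)⟩
    rfl rfl

theorem pb_zero (h : I z - t ∉ Λ) : pb Λ I t z = 0 := if_neg h

variable (hI : I ∈ Hol) (nc : ∀ c, I ≠ fun _ => c)
include hI

theorem an_I (τ : ℍ) : AnalyticAt ℂ (fun z => I (ofComplex z)) τ :=
  (UpperHalfPlane.mdifferentiable_iff.1 hI).analyticAt (isOpen_upperHalfPlaneSet.mem_nhds τ.im_pos)

include nc

theorem loc_I (τ : ℍ) : 0 < er I τ ∧ ∃ g : ℂ → ℂ, AnalyticAt ℂ g τ ∧ g τ ≠ 0 ∧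
    ∀ᶠ z : ℍ in 𝓝 τ, I z - I τ = ((z : ℂ) - τ) ^ er I τ * g z := by
  have e0 : ∀ᶠ z in 𝓝[≠] τ, I z - I τ ≠ 0 := not_frequently.1 fun k => nc _ (sub_eq_zero.1
    (eq_zero_of_frequently (Hol.sub_mem hI (Hol.algebraMap_mem _)) k))
  obtain ⟨g, h1, h2, h3⟩ := ((an_I hI τ).fun_sub analyticAt_const).analyticOrderAt_ne_top.1
    (fun k => by
      obtain ⟨z, k1, k2⟩ := (e0.and (nhdsWithin_le_nhds
        (continuous_coe.continuousAt.eventually (analyticOrderAt_eq_top.1 k)))).exists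
      exact k1 (by simpa using k2) : analyticOrderAt (fun z => I (ofComplex z) - I τ) τ ≠ ⊤)
  have e : ∀ᶠ z : ℍ in 𝓝 τ, I z - I τ = ((z : ℂ) - τ) ^ er I τ * g z :=
    (continuous_coe.continuousAt.eventually h3).mono fun z e => by simpa [er] using e
  exact ⟨Nat.pos_of_ne_zero fun k => h2 (by simpa [k] using e.self_of_nhds.symm), g, h1, h2, e⟩

theorem pb_ne : pb Λ I t z ≠ 0 ↔ I z - t ∈ Λ := by
  have := (loc_I hI nc z).1.ne'
  unfold pb
  split_ifs with h <;> simp [h, this]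

theorem mero_th (h : Th Λ θ b) (t : ℂ) : Mero (pb Λ I t) fun z => θ (I z - t) := fun w => by
  have a := (an_I hI w).sub (analyticAt_const (v := t))
  unfold pb
  split_ifs with k
  · obtain ⟨-, g, h1, h2, h3⟩ := loc_I hI nc w
    obtain ⟨f, k1, k2, k3⟩ := h.loc k
    refine ⟨fun z => g z * f (I (ofComplex z) - t), h1.mul ((k1.analyticAt _).comp a),
      mul_ne_zero h2 (by simpa using k2), h3.mono fun z e => ?_⟩
    simp only [ofComplex_apply]
    rw [k3, sub_sub_sub_cancel_right, e, zpow_natCast, mul_assoc]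
  · exact ⟨fun z => θ (I (ofComplex z) - t), (h.an.analyticAt _).comp a,
      by simpa using h.ne' k, .of_forall fun z => by simp⟩

/-- the quotient of theta functions is normalised -/
theorem pc_th (hL : IsLat Λ) (h : Th Λ θ b) (inv : ∀ γ ∈ Gamma0 N, ∀ τ, I (γ • τ) - I τ ∈ Λ)
    (lim : ∀ g : SL(2, ℤ), ∃ c ∈ Λ, Tendsto (fun z => I (g • z)) atImInfty (𝓝 c)) {s : ℂ}
    (h1 : t ∉ Λ) (h2 : t + s ∉ Λ) :
    Pc N (pb Λ I (t + s) - pb Λ I t) (fun z => b / π * (conj s * I z).im) 1 := by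
  have c : Continuous I := MDifferentiable.continuous hI
  have a := h.an.continuous
  obtain ⟨F, m, e⟩ := (mero_th hI nc h (t + s)).mul (mero_th hI nc h t).inv
  have m := m.mul' (Ψ' := fun z => Complex.exp (b * conj s * I z)) (n' := 0) (fun w =>
    ⟨fun z => Complex.exp (b * conj s * I (ofComplex z)), (analyticAt_const.mul (an_I hI w)).cexp',
      Complex.exp_ne_zero _, .of_forall fun z => by simp⟩) fun z => Or.inr rfl
  rw [add_zero, ← sub_eq_add_neg] at m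
  have e1 : ∀ z, I z - (t + s) ∉ Λ → I z - t ∉ Λ →
      (F * fun z => Complex.exp (b * conj s * I z)) z = ps θ b t s (I z) := fun z k1 k2 => by
    rw [Pi.mul_apply, e z (pb_zero k1) (neg_eq_zero.2 (pb_zero k2))]
    rfl
  generalize (F * fun z => Complex.exp (b * conj s * I z)) = Ψ at m e1
  have n1 : 0 - t ∉ Λ := by rwa [zero_sub, neg_mem_iff]
  have n2 : 0 - (t + s) ∉ Λ := by rwa [zero_sub, neg_mem_iff]
  have l : ∀ g : SL(2, ℤ), Tendsto (fun z => kf (fun z => b / π * (conj s * I z).im) Ψ (g • z))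
      atImInfty (𝓝 (ps θ b t s 0)) := fun g => by
    obtain ⟨u, hu, l⟩ := lim g
    have k : ∀ v, 0 - v ∉ Λ → u - v ∉ Λ := fun v q r => q (mem_of_eq (sub_mem r hu) (by ring))
    have p := h.ne' (k _ n1)
    have k0 : ContinuousAt (fun u => ps θ b t s u * ee (-(b / π * (conj s * u).im) : ℝ)) u := by
      unfold ps ee
      fun_prop (disch := exact p)
    have k1 := k0.tendsto.comp l
    rw [← zero_add u, h.ps_law t s 0 hu, zero_add, mul_right_comm, ← ee_add, Complex.ofReal_neg,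
      add_neg_cancel, show ee 0 = 1 by simp [ee], one_mul] at k1
    refine k1.congr' ?_
    filter_upwards [(l.sub_const _).eventually (hL.notMem_nhds (k _ n2)),
      (l.sub_const _).eventually (hL.notMem_nhds (k _ n1))] with z q r
    rw [kf, e1 _ q r]
    rfl
  refine Pc.one (κ := ps θ b t s 0) ⟨by fun_prop, Ψ, ⟨m, cus_of (c := fun _ => ps θ b t s 0)
    fun g => ⟨mul_ne_zero (mul_ne_zero (h.ne' n2) (inv_ne_zero (h.ne' n1))) (Complex.exp_ne_zero _),
      l g⟩, fun γ k => m.law γ ?_ (fun z => norm_ee _) fun w => ?_⟩, l⟩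
  · have := cont_smul γ
    unfold ee
    fun_prop
  · filter_upwards [nhdsWithin_le_nhds ((mero_th hI nc h (t + s)).ev w),
      nhdsWithin_le_nhds ((mero_th hI nc h t).ev w), self_mem_nhdsWithin] with z q r hz
    have q := mt (pb_ne hI nc).2 (not_not.2 (q hz))
    have r := mt (pb_ne hI nc).2 (not_not.2 (r hz))
    rw [e1 z q r, e1 _ (fun v => q (mem_of_eq (sub_mem v (inv γ k z)) (by ring)))
      fun v => r (mem_of_eq (sub_mem v (inv γ k z)) (by ring)),
      ← mul_sub, ← Complex.sub_im, ← mul_sub, ← h.ps_law t s _ (inv γ k z), add_sub_cancel]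

end

/-- a multiple of `n` is the divisor of a function with a unitary multiplier -/
def Ut (N : ℕ) (n : ℍ → ℤ) : Prop := ∃ (i : ℕ) (Ψ : ℍ → ℂ) (χ : SL(2, ℤ) → ℂ), 0 < i ∧
  Mero ((i : ℤ) • n) Ψ ∧ Cus Ψ ∧ ∀ γ ∈ Gamma0 N, ‖χ γ‖ = 1 ∧ ∀ z, Ψ (γ • z) = χ γ * Ψ z

theorem Ut.gd {N : ℕ} (hN : 0 < N) {n : ℍ → ℤ} (h : Ut N n) :
    ∃ (k : ℕ) (c : ℕ → ℂ), 0 < k ∧ Gd N (cs ((k : ℤ) • n)) c := by
  obtain ⟨i, Ψ, χ, i0, h1, h2, h3⟩ := h
  have e : ∀ z : ℂ, z = ‖z‖ * ee (z.arg / (2 * π) : ℝ) := fun z => by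
    have : (π : ℂ) ≠ 0 := by exact_mod_cast Real.pi_ne_zero
    refine (Complex.norm_mul_exp_arg_mul_I z).symm.trans ?_
    rw [ee]
    congr 2
    push_cast
    field_simp
  have u : Un N ((i : ℤ) • n) (fun z => (Ψ z).arg / (2 * π)) Ψ := ⟨h1, h2, fun γ k z => by
    have := e (Ψ (γ • z))
    rw [show ‖Ψ (γ • z)‖ = ‖Ψ z‖ by rw [(h3 γ k).2, norm_mul, (h3 γ k).1, one_mul]] at this
    refine this.trans (Eq.trans ?_ (congrArg _ (e (Ψ z)).symm))
    rw [mul_left_comm, ← ee_add, ← Complex.ofReal_add, sub_add_cancel]⟩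
  obtain ⟨k, c, k0, g⟩ := gd_of (fun Γ n Φ h => Bo.uni1 Γ n Φ h) hN u.green
  exact ⟨k * i, c, by positivity, by rwa [Nat.cast_mul, mul_smul]⟩

section

variable {N : ℕ} {G : ℍ → ℂ} {a : ℕ → ℤ} {A B : ℤ} {w : ℕ} {Λ : Submodule ℤ ℂ} {I : ℍ → ℂ}
  {x y : Mer} (h : RN N G a) (par : Par N a A B w Λ I x y)
include h par

theorem hol_I : I ∈ Hol := (prim_I h par).hol

theorem nc_I (c : ℂ) : I ≠ fun _ => c := fun e => by
  obtain ⟨ε, nf⟩ := nf_of_rn h
  exact EF.nf_ne nf ((smul_eq_zero.1 ((prim_I h par).eq_zero (congrFun e))).resolve_left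
    (inv_ne_zero (Nat.cast_ne_zero.2 par.wpos.ne')))

/-- the pull-backs are normalised -/
theorem psi1 : ∃ b : ℝ, b ≠ 0 ∧ ∀ t s, t ∉ LL I → t + s ∉ LL I →
    Pc N (pb (LL I) I (t + s) - pb (LL I) I t) (fun z => b * (conj s * I z).im) 1 := by
  obtain ⟨θ, b, k⟩ := the _ (lat h par)
  exact ⟨b / π, div_ne_zero k.ne Real.pi_ne_zero, fun t s => pc_th (hol_I h par) (nc_I h par)
    (lat h par) k (fun γ m τ => le h par (per_mem h par m τ)) fun g => ⟨_, cv_mem I g, tend h par g⟩⟩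

/-- Hecke operators on pull-backs -/
theorem pb_hecke {l : ℕ} (hl : l.Prime) (k : ¬ l ∣ N) {t s : ℂ} (h0 : t ∉ LL I)
    (h1 : t + s ∉ LL I) (h2 : t + a l * s ∉ LL I) :
    Pc N (Tz l (pb (LL I) I (t + s) - pb (LL I) I t) -
      (pb (LL I) I (t + a l * s) - pb (LL I) I t)) 0 1 := by
  obtain ⟨b, -, p⟩ := psi1 h par
  have := ((p t s h0 h1).hecke1 hl k).sub (p t _ h0 h2)
  rwa [inv_one, mul_one, show ((fun z => ∑ j, b * (conj s * I (mb (al l j) z)).im) -
    fun z => b * (conj (a l * s) * I z).im) = 0 from funext fun z => by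
      rw [Pi.sub_apply, ← Finset.mul_sum, ← Complex.im_sum, ← Finset.mul_sum, hecke h par hl k,
        map_mul, map_intCast, mul_left_comm, mul_assoc, sub_self, Pi.zero_apply]] at this

/-- **Abel**, the hard half, with the value one at all cusps -/
theorem abl0 {S : ℕ} (S0 : S ≠ 0) (hS : N ∣ S) : ∃ P : FreeAlgebra ℤ (PA S),
    FreeAlgebra.lift ℤ (fun l : PA S => a l.1) P ≠ 0 ∧
    FreeAlgebra.lift ℤ (fun l : PA S => (l.1 + 1 : ℤ)) P = 0 ∧ ∀ n, Ut N n →
      ∃ (k : ℕ) (s : ℂ), 0 < k ∧ ∀ (m : ℤ) t, t ∉ LL I → t + m * s ∉ LL I →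
        Pc N ((m * k) • hz P n - (pb (LL I) I (t + m * s) - pb (LL I) I t)) 0 1 := by
  obtain ⟨P, P0, hP⟩ := proj N S G a h S0 hS
  obtain ⟨l, hl, lS, h1⟩ := ex_l h.pos S
  let q : PA S := ⟨l, hl, fun d => not_le.2 lS (Nat.le_of_dvd (Nat.pos_of_ne_zero S0) d)⟩
  have n0 : (a l - (l + 1) : ℤ) ≠ 0 := sub_ne_zero.2 (triv N G a h l hl (nd hl h1)).1
  refine ⟨(FreeAlgebra.ι ℤ q - ((l + 1 : ℕ) : FreeAlgebra ℤ (PA S))) * P, by
    simpa [P0, q] using n0, by simp [q], fun n u => ?_⟩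
  obtain ⟨k, c, k0, g0⟩ := u.gd h.pos
  obtain ⟨m, Ψ, g, F, e1, s2, h2, h3, h4⟩ := Gd.lift hS P _ _ g0
  obtain ⟨-, -, g1, -, -, s1, q1, -⟩ := g0
  obtain ⟨κ, hκ⟩ := hP g1 c s1 q1
  obtain rfl : hz P ((k : ℤ) • n) = m := funext fun z =>
    Int.cast_injective (α := ℂ) (congrFun ((cs_hz P _).trans e1) z)
  obtain ⟨c1, p1⟩ := ex_c h.pos s2 h3 h4
  rw [hκ] at h2
  rw [QE.ext h2 (QE.smul h.qe κ)] at h3
  obtain ⟨C, hC⟩ := h3.exists_sub ((EF.prim_Pr h.qe (c_zero h.s2 h.qe)).smul κ)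
  obtain ⟨b, hb, p⟩ := psi1 h par
  refine ⟨k, conj (Complex.I * κ * w * (a l - (l + 1)) / b), k0, fun m t t0 t1 => ?_⟩
  have := ((p1.nrm hl h1).zsmul m).sub (p t _ t0 t1)
  rw [inv_one, mul_one] at this
  convert this using 2
  · rw [mul_smul, ← map_smul]
    congr 1
    rw [hz, map_mul, map_sub, map_natCast, FreeAlgebra.lift_ι_apply, Module.End.mul_apply,
      LinearMap.sub_apply, Module.End.natCast_apply, natCast_zsmul]
    rfl
  · funext z
    have w0 : (w : ℂ) ≠ 0 := Nat.cast_ne_zero.2 par.wpos.ne'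
    have b0 : (b : ℂ) ≠ 0 := Complex.ofReal_ne_zero.2 hb
    have e2 : ∀ z, F z = κ * w * I z + C := fun z => by
      rw [par.I_eq, ← hC z, Pi.smul_apply, smul_eq_mul]
      field_simp
      ring
    have e3 : b * (m * (Complex.I * κ * w * (a l - (l + 1)) / b) * I z) =
        (m : ℝ) * (∑ j, F (mb (al l j) z) - ((l + 1 : ℕ) : ℝ) * F z) * Complex.I := by
      simp only [e2, Finset.sum_add_distrib, ← Finset.mul_sum, hecke h par hl (nd hl h1),
        Finset.sum_const, Finset.card_univ, Fintype.card_option, Fintype.card_fin, nsmul_eq_mul]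
      push_cast
      field_simp
      ring
    simp only [Pi.sub_apply, Pi.smul_apply, Pi.zero_apply, map_mul, map_intCast, Complex.conj_conj,
      smul_eq_mul]
    rw [← Complex.im_ofReal_mul, e3, Complex.mul_I_im, Complex.re_ofReal_mul, Complex.sub_re,
      Complex.re_ofReal_mul, Complex.re_sum, sub_self]

end

end Vale.Agent.P014T.Es
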