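import Vale.Agent.P004Z.Bo.Mer

/-! # The exponential of the integral of a differential of the third kind -/

set_option autoImplicit false
set_option linter.all false

open Complex Filter Topology Metric ModularForm
open UpperHalfPlane hiding I
open scoped Real MatrixGroups

noncomputable section

namespace Vale.Agent.P014T.Es

open Vale.Agent.P004Z Vale.Agent.P004Z.Bo

/-- `w` is the logarithmic derivative of `Ψ` near `τ` -/
def Od (w Ψ : ℍ → ℂ) (τ : ℍ) : Prop :=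
  ∀ᶠ z : ℍ in 𝓝 τ, z ≠ τ → HasDerivAt (Ψ ∘ ofComplex) (w z * Ψ z) z

variable {n : ℍ → ℤ} {w Ψ Ψ' : ℍ → ℂ} {τ : ℍ} {k : ℤ}

theorem Od.congr (h : Od w Ψ τ) (e : Ψ' =ᶠ[𝓝 τ] Ψ) : Od w Ψ' τ := by
  filter_upwards [h, e.eventually_nhds] with z h1 h2 h3
  rw [h2.self_of_nhds]
  exact (h1 h3).congr_of_eventuallyEq (ev_of h2)

theorem Od.cmul (h : Od w Ψ τ) (c : ℂ) : Od w (fun z => c * Ψ z) τ := by
  filter_upwards [h] with z h1 h3
  rw [mul_left_comm]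
  exact (h1 h3).const_mul c

theorem Od.smul (γ : SL(2, ℤ)) (h : Od w Ψ (γ • τ)) :
    Od (w ∣[(2 : ℤ)] γ) (fun z => Ψ (γ • z)) τ := by
  filter_upwards [(continuous_const_smul (γ : GL (Fin 2) ℝ)).continuousAt.eventually h] with z h1 h3
  have a := (hasStrictDerivAt_smul (det_pos γ) z).hasDerivAt
  have b : HasDerivAt (Ψ ∘ ofComplex) (w (γ • z) * Ψ (γ • z))
      ((fun y : ℂ => (((γ : GL (Fin 2) ℝ) • ofComplex y : ℍ) : ℂ)) z) := by
    simp only [ofComplex_apply]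
    exact h1 fun e => h3 (MulAction.injective γ e)
  have d : ((γ : GL (Fin 2) ℝ).val.det : ℝ) = 1 :=
    (Matrix.SpecialLinearGroup.map (algebraMap ℤ ℝ) γ).2
  have := b.comp (z : ℂ) a
  rw [d] at this
  refine (this.congr_of_eventuallyEq (Eventually.of_forall fun y => ?_)).congr_deriv ?_
  · simp only [Function.comp_apply, ofComplex_apply]
    rfl
  · rw [SL_slash_apply, zpow_neg, zpow_ofNat]
    push_cast
    ring

theorem od_rig (h : MAt k Ψ τ) (h' : MAt k Ψ' τ) (e : Od w Ψ τ) (e' : Od w Ψ' τ) :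
    ∃ c : ℂ, c ≠ 0 ∧ ∀ᶠ z in 𝓝 τ, Ψ z = c * Ψ' z := by
  have n' := h'.ev_ne
  obtain ⟨u, h0, h1, h2⟩ := h
  obtain ⟨v, k0, k1, k2⟩ := h'
  have a := h0.div k0 k1
  have b := ev_coe.1 (k0.continuousAt.eventually_ne k1)
  have c : ∀ᶠ z : ℍ in 𝓝 τ, z ≠ τ → deriv (u / v) z = 0 := by
    filter_upwards [e, e', n', h2.eventually_nhds, k2.eventually_nhds] with z h3 h4 h5 h6 h7 h8
    have := ((h3 h8).div (h4 h8) (by simpa using h5 h8)).congr_of_eventuallyEq (f₁ := u / v)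
      (ev_coe.2 (by
        filter_upwards [h6, h7, eventually_ne_nhds h8] with y a1 a2 a3
        have : ((y : ℂ) - τ) ^ k ≠ 0 :=
          zpow_ne_zero _ (sub_ne_zero.2 fun h => a3 (UpperHalfPlane.ext h))
        simp only [Pi.div_apply, Function.comp_apply, ofComplex_apply, a1, a2,
          mul_div_mul_left _ _ this]))
    rw [this.deriv]
    simp only [Function.comp_apply, ofComplex_apply]
    ring
  have d : ∀ᶠ z in 𝓝 (τ : ℂ), deriv (u / v) z = 0 :=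
    a.deriv.frequently_zero_iff_eventually_zero.1 (Eventually.frequently
      (eventually_nhdsWithin_iff.2 (ev_coe.2 (c.mono fun z hz e => hz fun f => e (f ▸ rfl)))))
  obtain ⟨r, r0, hr⟩ := nhds_basis_ball.eventually_iff.1 (d.and a.eventually_analyticAt)
  obtain ⟨x, hx⟩ := isOpen_ball.exists_is_const_of_deriv_eq_zero (convex_ball (τ : ℂ) r).isPreconnected
    (fun z hz => (hr hz).2.differentiableAt.differentiableWithinAt) fun z hz => (hr hz).1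
  refine ⟨x, hx _ (mem_ball_self r0) ▸ div_ne_zero h1 k1, ?_⟩
  filter_upwards [ev_coe.1 (ball_mem_nhds (τ : ℂ) r0), h2, k2, b] with z h3 h4 h5 h6
  rw [h4, h5, ← hx z h3, Pi.div_apply]
  field_simp

/-- rigidity -/
theorem rig2 {U : Set ℍ} (hU : IsOpen U) (hc : IsPreconnected U)
    (h : ∀ τ ∈ U, MAt (n τ) Ψ τ ∧ Od w Ψ τ) (h' : ∀ τ ∈ U, MAt (n τ) Ψ' τ ∧ Od w Ψ' τ) :
    ∃ c : ℂ, c ≠ 0 ∧ ∀ z ∈ U, Ψ z = c * Ψ' z := by
  rcases U.eq_empty_or_nonempty with rfl | ⟨x, hx⟩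
  · exact ⟨1, one_ne_zero, fun _ h => h.elim⟩
  choose! c c1 c2 using fun τ hτ => od_rig (h τ hτ).1 (h' τ hτ).1 (h τ hτ).2 (h' τ hτ).2
  refine ⟨c x, c1 x hx, fun z hz => ?_⟩
  rw [(c2 z hz).self_of_nhds, hc.induction₂' (fun a b => c a = c b) (fun a ha => ?_)
    (fun _ _ _ _ _ _ => Eq.trans) hx hz]
  filter_upwards [self_mem_nhdsWithin, nhdsWithin_le_nhds (c2 a ha).eventually_nhds] with b hb h1
  obtain ⟨y, h2, h3, h4, h5⟩ := ((fr_ne b).and_eventually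
    (h1.and ((c2 b hb).and (h' b hb).1.ev_ne))).exists
  have := mul_right_cancel₀ (h5 h2) (h3.symm.trans h4)
  exact ⟨this, this.symm⟩

theorem prod_der (S : Finset ℍ) (n : ℍ → ℤ) {z : ℂ} (h : ∀ s ∈ S, z - s ≠ 0 ∨ n s = 0) :
    HasDerivAt (fun y : ℂ => ∏ s ∈ S, (y - s) ^ n s)
      ((∑ s ∈ S, n s / (z - s)) * ∏ s ∈ S, (z - s) ^ n s) z := by
  induction S using Finset.cons_induction with
  | empty => simpa using hasDerivAt_const z (1 : ℂ)
  | cons a S ha ih =>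
    simp only [Finset.prod_cons, Finset.sum_cons]
    have h1 := h a (Finset.mem_cons_self a S)
    have := ((hasDerivAt_zpow (n a) (z - a) (h1.imp_right fun e => e.ge)).comp z
      ((hasDerivAt_id z).sub_const (a : ℂ))).mul (ih fun s hs => h s (Finset.mem_cons_of_mem hs))
    refine this.congr_deriv ?_
    simp only [Function.comp_apply, id]
    rcases h1 with e | e
    · rw [zpow_sub_one₀ e]
      ring
    · simp [e]

/-- the local shape of the differential -/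
def Th (n : ℍ → ℤ) (w : ℍ → ℂ) : Prop := ∀ τ : ℍ, ∃ u : ℂ → ℂ, AnalyticAt ℂ u τ ∧
  ∀ᶠ z : ℍ in 𝓝 τ, z ≠ τ → n z = 0 ∧ w z = n τ / ((z : ℂ) - τ) + u z

theorem val_eq {g : ℍ → ℂ → ℂ} (g1 : ∀ τ : ℍ, AnalyticAt ℂ (g τ) τ)
    (g2 : ∀ τ : ℍ, ∀ᶠ z : ℍ in 𝓝 τ, z ≠ τ → n z = 0 ∧ w z = n τ / ((z : ℂ) - τ) + g τ z) (τ : ℍ) :
    ∀ᶠ z : ℍ in 𝓝 τ, z ≠ τ → g z z = w z := by
  filter_upwards [(g2 τ).eventually_nhds, ev_coe.1 (g1 τ).eventually_analyticAt] with z h1 h2 h3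
  have s : (z : ℂ) - τ ≠ 0 := sub_ne_zero.2 fun h => h3 (UpperHalfPlane.ext h)
  rw [(h1.self_of_nhds h3).2]
  have c : ContinuousAt (fun y : ℂ => n τ / (y - τ) + g τ y) z :=
    (continuousAt_const.div (continuousAt_id.sub continuousAt_const) s).add h2.continuousAt
  have t : Tendsto (fun y : ℍ => (y : ℂ)) (𝓝 z) (𝓝 (z : ℂ)) := continuous_coe.continuousAt
  refine tendsto_nhds_unique_of_frequently_eq ((g1 z).continuousAt.tendsto.comp t)
    (c.tendsto.comp t) (((fr_ne z).and_eventually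
      (h1.and ((g2 z).and (eventually_ne_nhds h3)))).mono fun y hy => ?_)
  have a1 := (hy.2.1 hy.2.2.2).2
  have a2 := (hy.2.2.1 hy.1).2
  rw [(h1.self_of_nhds h3).1, Int.cast_zero, zero_div, zero_add] at a2
  exact a2.symm.trans a1

theorem Th.ball (h : Th n w) (x : ℍ) (r : ℝ) :
    ∃ Ψ : ℍ → ℂ, ∀ τ ∈ ball x r, MAt (n τ) Ψ τ ∧ Od w Ψ τ := by
  classical
  choose g g1 g2 using h
  obtain ⟨S, hS⟩ := fin_sup (fun w => (g2 w).mono fun _ h e => (h e).1) (isCompact_closedBall x r)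
  have ne : ∀ w : ℍ, ∀ s ∈ S.erase w, (w : ℂ) - s ≠ 0 := fun w s hs =>
    sub_ne_zero.2 fun e => Finset.ne_of_mem_erase hs (UpperHalfPlane.ext e).symm
  have z0 : ∀ τ ∈ Metric.ball x r, τ ∉ S → n τ = 0 := fun τ hτ h =>
    not_not.1 fun e => h (hS τ (ball_subset_closedBall hτ) e)
  have P3 : ∀ τ ∈ Metric.ball x r, ∀ z : ℂ, ∏ s ∈ S, (z - s) ^ n s =
      (z - τ) ^ n τ * ∏ s ∈ S.erase τ, (z - s) ^ n s := fun τ hτ z => by
    by_cases h : τ ∈ S
    · exact (Finset.mul_prod_erase S (fun s => (z - s) ^ n s) h).symm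
    · rw [z0 τ hτ h, Finset.erase_eq_of_notMem h, zpow_zero, one_mul]
  have P4 : ∀ τ ∈ Metric.ball x r, ∀ z : ℂ, ∑ s ∈ S, (n s : ℂ) / (z - s) =
      n τ / (z - τ) + ∑ s ∈ S.erase τ, (n s : ℂ) / (z - s) := fun τ hτ z => by
    by_cases h : τ ∈ S
    · exact (Finset.add_sum_erase S (fun s => (n s : ℂ) / (z - s)) h).symm
    · rw [z0 τ hτ h, Finset.erase_eq_of_notMem h, Int.cast_zero, zero_div, zero_add]
  have g3 := val_eq g1 g2
  have an : ∀ z ∈ Metric.ball (x.center r : ℂ) (x.im * Real.sinh r),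
      AnalyticAt ℂ (fun z => g (ofComplex z) z - ∑ s ∈ S, (n s : ℂ) / (z - s)) z := fun z hz => by
    rw [← image_coe_ball] at hz
    obtain ⟨τ, hτ, rfl⟩ := hz
    have a : AnalyticAt ℂ (fun z => ∑ s ∈ S.erase τ, (n s : ℂ) / (z - s)) τ :=
      Finset.analyticAt_fun_sum _ fun s hs => analyticAt_const.fun_div
        (analyticAt_id.sub analyticAt_const) (ne τ s hs)
    refine ((g1 τ).fun_sub a).congr (ev_coe.2 ?_)
    filter_upwards [g2 τ, g3 τ] with z h1 h2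
    rw [ofComplex_apply, P4 τ hτ]
    by_cases e : z = τ
    · rw [e, sub_self, div_zero, zero_add]
    · rw [h2 e, (h1 e).2]
      ring
  obtain ⟨F, F1⟩ := DifferentiableOn.isExactOn_ball fun z hz =>
    (an z hz).differentiableAt.differentiableWithinAt
  have Fa : AnalyticOnNhd ℂ F (Metric.ball (x.center r) (x.im * Real.sinh r)) :=
    DifferentiableOn.analyticOnNhd (fun z hz => (F1 z hz).differentiableAt.differentiableWithinAt)
      isOpen_ball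
  refine ⟨fun z => (∏ s ∈ S, ((z : ℂ) - s) ^ n s) * exp (F z), fun τ hτ => ⟨?_, ?_⟩⟩
  · have a : AnalyticAt ℂ (fun z => ∏ s ∈ S.erase τ, (z - s : ℂ) ^ n s) τ :=
      Finset.analyticAt_fun_prod _ fun s hs =>
        (analyticAt_id.sub analyticAt_const).zpow (ne τ s hs)
    exact ⟨fun z => (∏ s ∈ S.erase τ, (z - s) ^ n s) * exp (F z),
      a.fun_mul (Fa _ (dist_lt_iff_dist_coe_center_lt.1 hτ)).cexp, mul_ne_zero
      (Finset.prod_ne_zero_iff.2 fun s hs => zpow_ne_zero _ (ne τ s hs)) (exp_ne_zero _),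
      .of_forall fun z => by simp only [P3 τ hτ, mul_assoc]⟩
  filter_upwards [g2 τ, g3 τ, isOpen_ball.mem_nhds hτ] with z h1 h2 h3 e
  have := (prod_der S n (z := z) fun s _ => (eq_or_ne z s).elim (fun f => .inr (f ▸ (h1 e).1))
    fun f => .inl (sub_ne_zero.2 fun h => f (UpperHalfPlane.ext h))).fun_mul
      (F1 z (dist_lt_iff_dist_coe_center_lt.1 h3)).cexp
  refine (this.congr_of_eventuallyEq (ev_coe.2 (.of_forall fun y => ?_))).congr_deriv ?_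
  · simp only [Function.comp_apply, ofComplex_apply]
  · simp only [ofComplex_apply, h2 e]
    ring

theorem expi (h : ∀ τ : ℍ, ∃ u : ℂ → ℂ, AnalyticAt ℂ u τ ∧
    ∀ᶠ z : ℍ in 𝓝 τ, z ≠ τ → n z = 0 ∧ w z = n τ / ((z : ℂ) - τ) + u z) :
    ∃ Ψ, Mero n Ψ ∧ ∀ τ, Od w Ψ τ := by
  obtain ⟨x, hx⟩ : ∃ x, n x = 0 := by
    obtain ⟨g, -, hg⟩ := h UpperHalfPlane.I
    obtain ⟨x, h1, h2⟩ := ((fr_ne _).and_eventually hg).exists
    exact ⟨x, (h2 h1).1⟩
  have : ∀ r : ℝ, ∃ Ψ : ℍ → ℂ, (∀ τ ∈ Metric.ball x r, MAt (n τ) Ψ τ ∧ Od w Ψ τ) ∧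
      (0 < r → Ψ x = 1) := fun r => by
    obtain ⟨Ψ, hΨ⟩ := Th.ball h x r
    by_cases hr : 0 < r; swap
    · exact ⟨Ψ, hΨ, fun h => (hr h).elim⟩
    have h2 : Ψ x ≠ 0 := (hΨ x (mem_ball_self hr)).1.val.2 hx
    exact ⟨fun z => (Ψ x)⁻¹ * Ψ z, fun τ hτ => ⟨(hΨ τ hτ).1.cmul (inv_ne_zero h2),
      (hΨ τ hτ).2.cmul _⟩, fun _ => inv_mul_cancel₀ h2⟩
  choose Ψ h1 h2 using this
  have h3 : ∀ r s, 0 < r → r ≤ s → ∀ z ∈ Metric.ball x r, Ψ r z = Ψ s z := fun r s hr hs z hz => by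
    obtain ⟨c, -, hc⟩ := rig2 isOpen_ball (pre_ball x r) (h1 r)
      fun τ hτ => h1 s τ (ball_subset_ball (x := x) hs hτ)
    have := hc x (mem_ball_self hr)
    rw [h2 r hr, h2 s (hr.trans_le hs), mul_one] at this
    rw [hc z hz, ← this, one_mul]
  have e : ∀ τ : ℍ, (fun z => Ψ (dist z x + 1) z) =ᶠ[𝓝 τ] Ψ (dist τ x + 2) := fun τ => by
    filter_upwards [ball_mem_nhds τ one_pos] with z hz
    exact h3 _ _ (by positivity) (by linarith [dist_triangle z τ x, mem_ball.1 hz]) z (by simp)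
  exact ⟨fun z => Ψ (dist z x + 1) z, fun τ => MAt.congr (h1 _ τ (by simp)).1 (e τ),
    fun τ => (h1 _ τ (by simp)).2.congr (e τ)⟩

end Vale.Agent.P014T.Es
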