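import Vale.Agent.P014T.Es.Exi
import Vale.Agent.P004Z.Ar.Plc
import Vale.Agent.P004Z.Ar.Abl0
import Vale.Agent.P004Z.Ar.Ws
import Vale.Agent.P004Z.EF.Core

/-! # P014 T: differentials of the third kind on the upper half plane -/

set_option autoImplicit false
set_option linter.all false

open UpperHalfPlane CongruenceSubgroup Filter Topology Function.Periodic
open scoped MatrixGroups Classical Real ModularForm

noncomputable section

namespace Vale.Agent.P014T.Es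

open Vale.Agent.P022.H218.L3 Vale.Agent.P022.H236.L3 Vale.Agent.P019P Vale.Agent.P027M.ES
open Vale.Agent.P022K.F0.Cf hiding MF
open Vale.Agent.P004Z Vale.Agent.P004Z.Ar Vale.Agent.P004Z.Ar.Fn
open Vale.Agent.P004Z.Bo (MAt)

namespace Ut

variable {x y : Mer} {τ : ℍ} {n : ℍ → ℤ} {N : ℕ} {Ψ : ℍ → ℂ}

theorem loc_an (h : Reg τ x) :
    ∃ u : ℂ → ℂ, AnalyticAt ℂ u τ ∧ ∀ᶠ z : ℍ in 𝓝 τ, Reg z x ∧ ev z x = u z := by
  obtain ⟨g, k, k0, e⟩ := h
  refine ⟨fun z => (g.1 ∘ ofComplex) z / (k.1 ∘ ofComplex) z,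
    (an g τ).div (an k τ) (by simpa using k0), ?_⟩
  filter_upwards [(cont k).continuousAt.eventually_ne k0] with z hz
  exact ⟨⟨g, k, hz, e⟩, by rw [ev_eq hz e]; simp⟩

theorem reg_inv {u : Hol} (h : u.1 τ ≠ 0) : Reg τ (jm u)⁻¹ :=
  reg_iff.2 (.inr (by rw [od_inv, od_unit h, neg_zero]))

theorem ev_unit (x : Mer) {u : Hol} (h : u.1 τ ≠ 0) : ev τ (x * jm u) = ev τ x * u.1 τ := by
  by_cases r : Reg τ x
  · rw [ev_mul r (reg_jm _ _), ev_jm]
  · rw [ev_pole r, zero_mul, ev_pole fun k => r ?_]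
    simpa only [mul_inv_cancel_right₀ (jm_ne' h)] using k.mul (reg_inv h)

theorem reg_int (τ : ℍ) (m : ℤ) : Reg τ (m : Mer) := intCast_mem (pl τ) m

theorem reg_log (h : x ≠ 0) (τ : ℍ) : Reg τ (DM x / x - od τ x / jm (tz τ)) := by
  obtain ⟨g, k, g0, k0, e⟩ := isOd τ h
  have d := congrArg DM e
  have t := jt_ne τ
  have g1 := jm_ne' g0
  have k1 := jm_ne' k0
  rw [DM_mul, DM_mul, Derivation.leibniz_zpow, DM_tz, zpow_sub_one₀ t, ← (div_eq_iff g1).2 e] at d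
  rw [show DM x / x - od τ x / jm (tz τ) = DM (jm g) * (jm g)⁻¹ - DM (jm k) * (jm k)⁻¹ by
    simp only [smul_eq_mul, mul_one, zsmul_eq_mul] at d
    field_simp at d ⊢
    linear_combination d]
  exact (pl τ).sub_mem ((reg_jm τ g).D.mul (reg_inv g0)) ((reg_jm τ k).D.mul (reg_inv k0))

/-- functions which vanish along a filter -/
def Zr (l : Filter ℍ) : Submodule ℂ Mer where
  carrier := {x | (∀ᶠ τ in l, Reg τ x) ∧ Tendsto (fun τ => ev τ x) l (𝓝 0)}
  add_mem' := fun ⟨a, b⟩ ⟨a', b'⟩ => ⟨(a.and a').mono fun _ h => h.1.add h.2,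
    (add_zero (0 : ℂ) ▸ b.add b').congr' ((a.and a').mono fun _ h => (ev_add h.1 h.2).symm)⟩
  zero_mem' := ⟨.of_forall fun τ => (pl τ).zero_mem, by
    simpa only [ev_zero] using tendsto_const_nhds⟩
  smul_mem' := fun c x ⟨a, b⟩ => by
    rw [Algebra.smul_def]
    exact ⟨a.mono fun τ h => (reg_const τ c).mul h, (mul_zero c ▸ b.const_mul c).congr'
      (a.mono fun τ h => by simp only [ev_mul (reg_const τ c) h, ev_const])⟩

theorem zr_pure : x ∈ Zr (pure τ) ↔ Reg τ x ∧ ev τ x = 0 :=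
  and_congr eventually_pure ⟨tendsto_nhds_unique (tendsto_pure_nhds _ τ), fun e =>
    e ▸ tendsto_pure_nhds (fun τ => ev τ x) τ⟩

/-- `j - j τ` -/
def sj (τ : ℍ) : Mer := jM - algebraMap ℂ Mer (jf τ)

theorem sj_ne (τ : ℍ) : sj τ ≠ 0 := sub_ne_zero.2 (jM_ne_const _)

theorem act_sj (g : SL(2, ℤ)) (τ : ℍ) : act g⁻¹ (sj (g • τ)) = sj τ := by
  rw [sj, map_sub, act_eq_self jM_mem trivial, AlgEquiv.commutes, ← ev_j, ev_MF jM_mem trivial,
    ev_j, sj]

/-- `y dj` has simple poles with the residues `n` -/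
def Gd (n : ℍ → ℤ) (y : Mer) : Prop :=
  ∀ τ, sj τ * y - algebraMap ℂ Mer (n τ / od τ (sj τ)) ∈ Zr (pure τ)

theorem Gd.act (h : Gd n y) (g : SL(2, ℤ)) : Gd (fun z => n (g • z)) (act g⁻¹ y) := fun τ => by
  have := zr_pure.1 (h (g • τ))
  rwa [← reg_act, ← ev_act, ← od_act, map_sub, map_mul, AlgEquiv.commutes, act_sj, ← zr_pure] at this

theorem alg {F : Type} [Field F] {s : F} (h : s ≠ 0) (y d c o t : F) :
    y * d - c * o / t = (s * y - c + c) * (d / s - o / t) + o * ((s * y - c) / t) := by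
  rw [sub_add_cancel, mul_sub, mul_comm s y, mul_assoc, mul_div_cancel₀ _ h]
  ring

theorem Gd.reg (h : Gd n y) (τ : ℍ) : Reg τ (y * DM jM - n τ / jm (tz τ)) := by
  obtain ⟨a, b⟩ := zr_pure.1 (h τ)
  have o : ((od τ (sj τ) : ℤ) : ℂ) ≠ 0 := Int.cast_ne_zero.2 (od_j τ).ne'
  have e : algebraMap ℂ Mer (n τ / od τ (sj τ)) * od τ (sj τ) = n τ := by
    rw [← map_intCast (algebraMap ℂ Mer), ← map_mul, div_mul_cancel₀ _ o, map_intCast]
  have c := reg_const τ (n τ / od τ (sj τ))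
  have l := reg_log (sj_ne τ) τ
  have s := sj_ne τ
  rw [show DM (sj τ) = DM jM by rw [sj, map_sub, Derivation.map_algebraMap, sub_zero]] at l
  generalize algebraMap ℂ Mer (n τ / od τ (sj τ)) = C at *
  have r : Reg τ ((sj τ * y - C) / jm (tz τ)) := by
    by_cases z : sj τ * y - C = 0
    · exact reg_iff.2 (.inl (by rw [z, zero_div]))
    · have := (ev_eq_zero z a).1 b
      exact reg_iff.2 (.inr (by rw [od_div τ z (jt_ne τ), od_tz]; omega))
  rw [← e, alg s]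
  exact ((a.add c).mul l).add ((reg_int τ _).mul r)

theorem Gd.zero (h : Gd n y) (r : Reg τ (y * DM jM)) : n τ = 0 := by
  by_contra c
  have z : (n τ : Mer) ≠ 0 := fun e => c (Int.cast_injective (α := ℂ) ((algebraMap ℂ Mer).injective
    (by rw [map_intCast, e, Int.cast_zero, map_zero])))
  have : Reg τ _ := (pl τ).sub_mem r (h.reg τ)
  rw [sub_sub_cancel, reg_iff, or_iff_right (div_ne_zero z (jt_ne τ)),
    od_div τ z (jt_ne τ), od_tz, ← map_intCast (algebraMap ℂ Mer), od_const] at this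
  omega

theorem Gd.exp (h : Gd n y) : ∃ Ψ, Mero n Ψ ∧ ∀ τ, Od (fun z => ev z (y * DM jM)) Ψ τ :=
  expi fun τ => by
    obtain ⟨u, a, b⟩ := loc_an (h.reg τ)
    refine ⟨u, a, ?_⟩
    filter_upwards [b, ev_reg τ (y * DM jM)] with z b c d
    have i := reg_inv (tz_ne d)
    refine ⟨h.zero (c d), ?_⟩
    rw [← b.2, div_eq_mul_inv (n τ : Mer), ev_sub (c d) ((reg_int z _).mul i),
      ev_mul (reg_int z _) i, ev_inv, ev_jm, ← map_intCast (algebraMap ℂ Mer), ev_const, tz_val]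
    ring

theorem slash (y : Mer) (g : SL(2, ℤ)) :
    (fun z => ev z (y * DM jM)) ∣[(2 : ℤ)] g = fun z => ev z (act g⁻¹ y * DM jM) := by
  funext z
  have d : DM (act g⁻¹ jM) = act g⁻¹ (DM jM) * jm (dr g⁻¹⁻¹) := DM_ac g⁻¹ jM
  rw [act_eq_self jM_mem trivial, inv_inv] at d
  rw [ModularForm.SL_slash_apply, ← ev_act, map_mul]
  conv_rhs => rw [d, ← mul_assoc, ev_unit _ (dr_ne g z), dr_gl (g := g) (s := g) (by simp) fun _ => rfl]
  simp [zpow_ofNat]

theorem hd_q (M : ℝ) (z : ℂ) : HasDerivAt (qParam M) (qParam M z * (2 * π * Complex.I / M)) z := by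
  simpa only [id_eq, mul_one] using! (((hasDerivAt_id z).const_mul _).div_const _).cexp

theorem ld_LR : DM jM / jM ∈ LR := by
  obtain ⟨M, φ, hM, a, b⟩ := cusp_mer (Γ := ⊤) jM_mem
  have t := P022.H236.tendsto_q hM.ne'
  obtain ⟨k, hk⟩ := WithTop.ne_top_iff_exists.1 fun o : meromorphicOrderAt φ 0 = ⊤ =>
    j_not 1 (by
      rw [map_one]
      exact ⟨.of_forall reg_j, 0, tendsto_const_nhds.congr' ((b.and (t.eventually
        (meromorphicOrderAt_eq_top_iff.1 o))).mono fun τ e => (e.1.2.trans e.2).symm)⟩)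
  obtain ⟨u, u1, u0, e⟩ := (meromorphicOrderAt_eq_int_iff a).1 hk.symm
  have t' := t.mono_right nhdsWithin_le_nhds
  obtain ⟨A, hA⟩ := (atImInfty_mem _).1 (b.and ((t.eventually e).and
    ((t'.eventually u1.eventually_analyticAt).and (t'.eventually (u1.continuousAt.eventually_ne u0)))))
  have v : ∀ τ : ℍ, A < τ.im → jf τ = qParam M τ ^ k * u (qParam M τ) := fun τ h => by
    obtain ⟨h1, h2, -⟩ := hA τ h.le
    rw [← ev_j, h1.2, h2, sub_zero, smul_eq_mul]
  have w : ∀ᶠ τ : ℍ in atImInfty, Reg τ (DM jM / jM) ∧ ev τ (DM jM / jM) = 2 * π * Complex.I / (M : ℝ) *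
      (k + qParam M τ * deriv u (qParam M τ) / u (qParam M τ)) := by
    filter_upwards [tendsto_comap.eventually (eventually_gt_atTop A)] with τ h
    obtain ⟨-, -, h3, h4⟩ := hA τ h.le
    have q0 : qParam M τ ≠ 0 := qParam_ne_zero _
    have j0 : jf τ ≠ 0 := v τ h ▸ mul_ne_zero (zpow_ne_zero _ q0) h4
    have i : Reg τ jM⁻¹ := reg_inv (u := ⟨jf, jf_mem⟩) j0
    refine ⟨(reg_j τ).D.mul i, ?_⟩
    have d := dH_eq (f := ⟨jf, jf_mem⟩) (τ := τ)
      ((((hasDerivAt_zpow k _ (.inl q0)).comp _ (hd_q M τ))).mul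
        (h3.differentiableAt.hasDerivAt.comp _ (hd_q M τ)))
      ((continuous_im.continuousAt.eventually (lt_mem_nhds h)).mono fun σ s => by
        simpa using v σ s)
    rw [div_eq_mul_inv, ev_mul (reg_j τ).D i, ev_inv, ev_j, v τ h,
      show DM jM = jm (dH ⟨jf, jf_mem⟩) from DM_jm ⟨jf, jf_mem⟩, ev_jm, d, zpow_sub_one₀ q0]
    have := zpow_ne_zero k q0
    simp only [Function.comp_apply]
    field_simp
  exact ⟨w.mono fun _ => And.left, _, (((((continuousAt_id.mul u1.deriv.continuousAt).div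
    u1.continuousAt u0).tendsto.comp t').const_add _).const_mul _).congr'
      (w.mono fun τ e => e.2.symm)⟩

/-- non zero limits at the cusps -/
def Lm (Ψ : ℍ → ℂ) : Prop :=
  ∀ g : SL(2, ℤ), ∃ c ≠ 0, Tendsto (fun z => Ψ (g • z)) atImInfty (𝓝 c)

theorem Lm.cus (h : Lm Ψ) : Cus Ψ := fun g => by
  obtain ⟨c, c0, b⟩ := h g
  obtain ⟨y, hy⟩ := (atImInfty_mem _).1 ((b.eventually_ne c0).and
    ((b.norm.eventually (gt_mem_nhds (lt_add_one _))).and
      ((b.inv₀ c0).norm.eventually (gt_mem_nhds (lt_add_one _)))))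
  have := norm_nonneg c
  have := norm_nonneg c⁻¹
  refine ⟨‖c‖ + ‖c⁻¹‖ + 1, y, by positivity, fun z hz => ?_⟩
  obtain ⟨k1, k3, k4⟩ := hy z hz.le
  rw [norm_inv] at k4
  exact ⟨inv_le_of_inv_le₀ (norm_pos_iff.2 k1) (by linarith), by linarith⟩

theorem Gd.lm [NeZero N] (h : Gd n y) (i : ∀ γ ∈ Gamma0 N, Vale.Agent.P022.H218.L3.act γ y = y)
    (hz : ∀ g : SL(2, ℤ), Vale.Agent.P022.H218.L3.act g⁻¹ (jM * y) ∈ Zr atImInfty) (m : Mero n Ψ)
    (o : ∀ τ, Od (fun z => ev z (y * DM jM)) Ψ τ) : Lm Ψ := fun g => by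
  obtain ⟨M, hM, hT⟩ := Inj.exists_width (Gamma0 N)
  have M0 : (0 : ℝ) < M := Nat.cast_pos.2 hM
  have h' := h.act g
  have o' := fun τ => (o (g • τ)).smul g
  have p : ∀ τ, ev (ModularGroup.T ^ M • τ) (Vale.Agent.P022.H218.L3.act g⁻¹ y * DM jM) =
      ev τ (Vale.Agent.P022.H218.L3.act g⁻¹ y * DM jM) := fun τ => by
    have := congrFun (slash (Vale.Agent.P022.H218.L3.act g⁻¹ y) (ModularGroup.T ^ M)) τ
    rw [ModularForm.SL_slash_apply, ← zpow_natCast, ModularGroup.denom_apply,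
      ModularGroup.coe_T_zpow, zpow_natCast, ← AlgEquiv.mul_apply, ← map_mul,
      show (ModularGroup.T ^ M)⁻¹ * g⁻¹ = g⁻¹ * (g * ModularGroup.T ^ M * g⁻¹)⁻¹ by group, map_mul,
      AlgEquiv.mul_apply, i _ (inv_mem (hT g))] at this
    simpa using this
  obtain ⟨a, b⟩ := hz g
  obtain ⟨a', c, b'⟩ := ld_LR
  rw [map_mul, act_eq_self jM_mem trivial] at a b
  rw [slash] at o'
  generalize Vale.Agent.P022.H218.L3.act g⁻¹ y = Y at *
  have e : jM * Y * (DM jM / jM) = Y * DM jM := by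
    have : jM ≠ 0 := by simpa using jM_ne_const 0
    field_simp
  have r : ∀ᶠ τ in atImInfty, Reg τ (Y * DM jM) := (a.and a').mono fun _ k => e ▸ k.1.mul k.2
  have l : Tendsto (fun τ => ev τ (Y * DM jM)) atImInfty (𝓝 0) :=
    (zero_mul c ▸ b.mul b').congr' ((a.and a').mono fun _ k => by simp only [← e, ev_mul k.1 k.2])
  obtain ⟨φ, f1, f2⟩ := cusp (F := fun τ => ev τ (Y * DM jM)) hM p (r.mono fun τ k =>
    (loc_an k).elim fun u k => k.1.differentiableAt.congr_of_eventuallyEq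
      (Bo.ev_coe.2 (k.2.mono fun z s => by simpa using s.2))) (l.isBigO_one ℝ)
  have t := qParam_tendsto_atImInfty M0
  have f0 : φ 0 = 0 := tendsto_nhds_unique ((f1.continuousAt.tendsto.comp t).congr
    fun τ => (f2 τ).symm) l
  obtain ⟨ε, e0, d⟩ := Metric.eventually_nhds_iff_ball.1 (Bo.an_dslope f1).eventually_analyticAt
  obtain ⟨H, hH⟩ := DifferentiableOn.isExactOn_ball (f := dslope φ 0)
    fun z k => (d z k).differentiableAt.differentiableWithinAt
  let E : ℂ → ℂ := fun z => Complex.exp (H (qParam M z) / (2 * π * Complex.I / (M : ℝ)))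
  have cq : Continuous (qParam M) := continuous_iff_continuousAt.2 fun z => (hd_q M z).continuousAt
  have dE : ∀ z : ℂ, ∀ᶠ w in 𝓝 z, qParam M z ∈ Metric.ball 0 ε →
      HasDerivAt E (φ (qParam M w) * E w) w := fun z => by
    by_cases k : qParam M z ∈ Metric.ball 0 ε
    · filter_upwards [cq.continuousAt.eventually (Metric.isOpen_ball.mem_nhds k)] with w s _
      refine ((((hH _ s).comp w (hd_q M w)).div_const _).cexp).congr_deriv ?_
      have := sub_smul_dslope φ 0 (qParam M w)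
      rw [f0, sub_zero, sub_zero, smul_eq_mul] at this
      rw [← mul_assoc, mul_div_cancel_right₀ _ (div_ne_zero Complex.two_pi_I_ne_zero
        (Complex.ofReal_ne_zero.2 M0.ne')), mul_comm (dslope _ _ _), this, mul_comm]
      rfl
    · exact .of_forall fun _ s => (k s).elim
  obtain ⟨A, hA⟩ := (atImInfty_mem _).1 (r.and (t.eventually (Metric.ball_mem_nhds 0 e0)))
  obtain ⟨C, C0, k⟩ := rig2 (U := {z : ℍ | A < z.im}) (n := fun z => n (g • z))
    (Ψ' := fun z => E z) (isOpen_lt continuous_const continuous_im) (Bo.pre_im A)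
    (fun τ _ => ⟨MAt.smul (m (g • τ)), o' τ⟩) fun τ s => by
      obtain ⟨s1, s2⟩ := hA τ (le_of_lt s)
      refine ⟨⟨E, Complex.analyticAt_iff_eventually_differentiableAt.2 ((dE τ).mono fun w k =>
        (k s2).differentiableAt), Complex.exp_ne_zero _, .of_forall fun z => by
          rw [h'.zero s1, zpow_zero, one_mul]⟩, (Bo.ev_coe.1 (dE τ)).mono fun z k _ => ?_⟩
      simp only [f2]
      exact (k s2).congr_of_eventuallyEq (Bo.ev_coe.2 (.of_forall fun _ => by simp))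
  exact ⟨_, mul_ne_zero C0 (Complex.exp_ne_zero _), (((((hH 0 (Metric.mem_ball_self e0)).continuousAt.tendsto.comp
    t).div_const _).cexp).const_mul C).congr' ((tendsto_comap.eventually (eventually_gt_atTop A)).mono
      fun z s => (k z s).symm)⟩

theorem zr_cp {Γ : Subgroup SL(2, ℤ)} [Γ.FiniteIndex] [CFF ℂ (MF Γ)] {x : MF Γ} {g : SL(2, ℤ)}
    (h : x ∈ Mge (cp Γ g) 1) : act g⁻¹ (x : Mer) ∈ Zr atImInfty := by
  by_cases z : x = 0
  · rw [z, ZeroMemClass.coe_zero, map_zero]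
    exact zero_mem _
  have o := (mem_Mge.1 h).resolve_left z
  obtain ⟨a, c, b⟩ := mem_cp.1 ((mem_iff_ord (cp Γ g) x).2 (.inr (by omega)))
  refine ⟨a, (not_not.1 fun c0 : c ≠ 0 => ?_ : c = 0) ▸ b⟩
  have x0 : act g⁻¹ (x : Mer) ≠ 0 := (map_ne_zero _).2 fun e => z (Subtype.ext e)
  have := (mem_iff_ord (cp Γ g) x⁻¹).1 (mem_cp.2 (by
    rw [IntermediateField.coe_inv, act_inv]
    exact ⟨(b.eventually_ne c0).mono fun τ k => reg_iff.2 (.inr (by
      rw [od_inv, (mat_ev x0 τ).val.1 k, neg_zero])), _,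
      (b.inv₀ c0).congr fun τ => (ev_inv _ _).symm⟩))
  rw [inv_eq_zero, or_iff_right z, ord_inv] at this
  omega

theorem zr_pt {Γ : Subgroup SL(2, ℤ)} [CFF ℂ (MF Γ)] (h4 : Γ ≤ Gamma0 4) {x : MF Γ}
    (h : x ∈ Mge (pt Γ τ) 1) : (x : Mer) ∈ Zr (pure τ) := by
  by_cases z : (x : Mer) = 0
  · exact z ▸ zero_mem _
  · have := (mem_Mge.1 h).resolve_left fun e => z (congrArg Subtype.val e)
    rw [ord_pt h4] at this
    have r := reg_iff.2 (.inr (zero_le_one.trans this))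
    exact zr_pure.2 ⟨r, (ev_eq_zero z r).2 this⟩

theorem od_j0 (τ : ℍ) : 0 ≤ od τ jM :=
  (reg_iff.1 (reg_j τ)).resolve_left (by simpa using jM_ne_const 0)

theorem ex_D {M : ℕ} (hM : 0 < M) (h4 : Gamma0 M ≤ Gamma0 4) (hd : Dv M (cs n))
    (h0 : ws M (cs n) 1 = 0) : ∃ D : Plk ℂ (MF (Gamma0 M)) →₀ ℤ, dg D = 0 ∧
      (∀ P, (∀ τ, P ≠ pt _ τ) → D P = 0) ∧ ∀ τ, D (pt _ τ) = n τ := by
  have p2 : ∀ {τ τ'}, pt (Gamma0 M) τ = pt _ τ' → ∃ γ ∈ Gamma0 M, γ • τ = τ' := fun e =>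
    (pt_fix h4 e).imp fun γ a => ⟨inv_mem_iff.1 (EF.Gn.stab hM (a.2 _ (EF.Gn.jN_mem hM))), a.1⟩
  obtain ⟨s, hs⟩ := hd.reps
  have i : Inv M n := fun γ a z => Int.cast_injective (hd.inv γ a z)
  refine ⟨∑ z ∈ s, Finsupp.single (pt _ z) (n z), ?_, fun P k => ?_, fun τ => ?_⟩
  · rw [ws_reps hs i fun _ _ _ => rfl, evd] at h0
    simp only [map_sum, dg_sgl]
    exact_mod_cast (by simpa using h0 : ∑ z ∈ s, (n z : ℂ) = 0)
  · rw [Finsupp.finset_sum_apply]
    exact Finset.sum_eq_zero fun z _ => Finsupp.single_eq_of_ne (k z)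
  · rw [Finsupp.finset_sum_apply]
    by_cases k : n τ = 0
    · refine (Finset.sum_eq_zero fun z _ => ?_).trans k.symm
      rw [Finsupp.single_apply]
      split_ifs with e
      · obtain ⟨γ, a, rfl⟩ := p2 e
        rwa [i γ a] at k
      · rfl
    · obtain ⟨γ, a, b⟩ := hs.ex τ k
      rw [Finset.sum_eq_single_of_mem _ b fun z c d => Finsupp.single_eq_of_ne fun e => d ?_,
        ← pt_mv a, Finsupp.single_eq_same, i γ a]
      obtain ⟨δ, a', b'⟩ := p2 ((pt_mv a τ).symm.trans e)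
      exact (hs.uq _ b _ c δ a' b').symm

end Ut

end Vale.Agent.P014T.Es
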